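import Vale.Agent.P287T.Fm.Defs
import Vale.Agent.P287T.Au.St

/-!
# Reindexing and duals of raw matrix factorizations
-/

open MvPolynomial Module

namespace Vale.Agent.P287T.Kr

open Vale.Agent.P287T.Cy Vale.Agent.P287Z.O Vale.Agent.P287Z.T

/-- a raw matrix factorization, indexed by `Fin n` -/
noncomputable def gm {W : S6} {ι : Type} [Fintype ι] [DecidableEq ι] {p : ι → ℤ}
    {d : Matrix ι ι S6} (h : IsMF W p d) : V.GMF W (Fintype.card ι) where
  p k := p ((Fintype.equivFin ι).symm k)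
  d := d.submatrix (Fintype.equivFin ι).symm (Fintype.equivFin ι).symm
  deg _ _ := h.deg _ _
  sq := by
    rw [Matrix.submatrix_mul_equiv, h.sq, Matrix.submatrix_smul, Pi.smul_apply, Pi.smul_apply,
      Matrix.submatrix_one_equiv]

theorem dual_dual {W : S6} {n : ℕ} (E : V.GMF W n) : Fm.dual (Fm.dual E) = E := by
  obtain ⟨p, d, h1, h2⟩ := E
  simp only [Fm.dual, neg_neg, Matrix.transpose_transpose]

variable {ι κ ι' κ' : Type} [Fintype ι] [Fintype κ] [Fintype ι'] [Fintype κ']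

theorem hh_of_equiv {p : ι → ℤ} {d : Matrix ι ι S6} {q : κ → ℤ} {e : Matrix κ κ S6}
    {p' : ι' → ℤ} {d' : Matrix ι' ι' S6} {q' : κ' → ℤ} {e' : Matrix κ' κ' S6} {j j' : ℤ}
    (α : Matrix κ ι S6 ≃ₗ[ℂ] Matrix κ' ι' S6)
    (hZ : ∀ g, α g ∈ ZZ p' d' q' e' j' ↔ g ∈ ZZ p d q e j)
    (hB : ∀ g, α g ∈ BB p' d' q' e' j' ↔ g ∈ BB p d q e j) :
    Nonempty (HH p d q e j ≃ₗ[ℂ] HH p' d' q' e' j') :=
  hq_equiv α.toLinearMap (fun z hz => (hZ z).2 hz) (fun z _ => hB z) fun z' hz' =>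
    ⟨α.symm z', (hZ _).1 (by rwa [α.apply_symm_apply]), by
      rw [LinearEquiv.coe_coe, α.apply_symm_apply, sub_self]; exact zero_mem _⟩

/-- reindexing -/
theorem hh_reindex (a : ι' ≃ ι) (b : κ' ≃ κ) (p : ι → ℤ) (d : Matrix ι ι S6) (q : κ → ℤ)
    (e : Matrix κ κ S6) (j : ℤ) : Nonempty (HH p d q e j ≃ₗ[ℂ]
      HH (fun k => p (a k)) (d.submatrix a a) (fun k => q (b k)) (e.submatrix b b) j) := by
  have hM : ∀ (g : Matrix κ ι S6) (n : ℤ),
      g.submatrix b a ∈ MM (fun k => p (a k)) (fun k => q (b k)) n ↔ g ∈ MM p q n := fun g n =>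
    ⟨fun h i l => by simpa using h (b.symm i) (a.symm l), fun h i l => h _ _⟩
  have hi : ∀ g g' : Matrix κ ι S6, g.submatrix b a = g'.submatrix b a ↔ g = g' := fun g g' =>
    (Matrix.reindex b.symm a.symm).injective.eq_iff
  refine hh_of_equiv (Matrix.reindexLinearEquiv ℂ S6 b.symm a.symm) (fun g => ?_) fun g => ?_
  · change g.submatrix b a ∈ _ ↔ _
    rw [mem_ZZ, mem_ZZ, hM, Matrix.submatrix_mul_equiv, Matrix.submatrix_mul_equiv, hi]
  · change g.submatrix b a ∈ _ ↔ _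
    rw [mem_BB, mem_BB]
    constructor
    · rintro ⟨h, h1, h2⟩
      obtain ⟨h, rfl⟩ : ∃ h' : Matrix κ ι S6, h'.submatrix b a = h :=
        ⟨h.submatrix b.symm a.symm, by simp⟩
      refine ⟨h, (hM _ _).1 h1, (hi _ _).1 ?_⟩
      rw [h2, Matrix.submatrix_mul_equiv, Matrix.submatrix_mul_equiv]
      rfl
    · rintro ⟨h, h1, rfl⟩
      refine ⟨h.submatrix b a, (hM _ _).2 h1, ?_⟩
      rw [Matrix.submatrix_mul_equiv, Matrix.submatrix_mul_equiv]
      rfl

/-- transposition -/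
theorem hh_transpose (p : ι → ℤ) (d : Matrix ι ι S6) (q : κ → ℤ) (e : Matrix κ κ S6) (j : ℤ) :
    Nonempty (HH p d q e j ≃ₗ[ℂ]
      HH (fun k => -q k) e.transpose (fun k => -p k) d.transpose j) := by
  have hM : ∀ (g : Matrix κ ι S6) (n : ℤ),
      g.transpose ∈ MM (fun k => -q k) (fun k => -p k) n ↔ g ∈ MM p q n := fun g n => by
    rw [mem_MM, mem_MM, forall_comm]
    refine forall_congr' fun i => forall_congr' fun l => ?_
    rw [show n + -q i - -p l = n + p l - q i by ring]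
    rfl
  refine hh_of_equiv (Matrix.transposeLinearEquiv κ ι ℂ S6) (fun g => ?_) fun g => ?_
  · change g.transpose ∈ _ ↔ _
    rw [mem_ZZ, mem_ZZ, hM, ← Matrix.transpose_mul, ← Matrix.transpose_mul,
      Matrix.transpose_inj, eq_comm]
  · change g.transpose ∈ _ ↔ _
    rw [mem_BB, mem_BB]
    constructor
    · rintro ⟨h, h1, h2⟩
      refine ⟨h.transpose, (hM _ _).1 h1, Matrix.transpose_injective ?_⟩
      rw [h2, Matrix.transpose_add, Matrix.transpose_mul, Matrix.transpose_mul,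
        Matrix.transpose_transpose, add_comm]
    · rintro ⟨h, h1, rfl⟩
      refine ⟨h.transpose, (hM _ _).2 h1, ?_⟩
      rw [Matrix.transpose_add, Matrix.transpose_mul, Matrix.transpose_mul, add_comm]

variable [DecidableEq ι] [DecidableEq κ] {W : S6} {p : ι → ℤ} {d : Matrix ι ι S6} {q : κ → ℤ}
  {e : Matrix κ κ S6}

theorem hm_gm (h : IsMF W p d) (h' : IsMF W q e) (k : ℤ) :
    Nonempty (Fm.Hm (gm h) (gm h') k ≃ₗ[ℂ] HH p d q e (3 * k)) :=
  (hh_reindex (Fintype.equivFin ι).symm (Fintype.equivFin κ).symm p d q e (3 * k)).map .symm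

theorem hm_dual' {m n : ℕ} (E : V.GMF W m) (F : V.GMF W n) (k : ℤ) :
    Nonempty (Fm.Hm (Fm.dual F) (Fm.dual E) k ≃ₗ[ℂ] Fm.Hm E F k) :=
  (hh_transpose E.p E.d F.p F.d (3 * k)).map .symm

theorem hm_dual (h : IsMF W p d) (h' : IsMF W q e) (k : ℤ) :
    Nonempty (Fm.Hm (Fm.dual (gm h')) (Fm.dual (gm h)) k ≃ₗ[ℂ] HH p d q e (3 * k)) := by
  obtain ⟨a⟩ := hm_dual' (gm h) (gm h') k
  obtain ⟨b⟩ := hm_gm h h' k
  exact ⟨a.trans b⟩

end Vale.Agent.P287T.Kr
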