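import Vale.Agent.P287T.Kr.Dual

/-!
# Maps out of a nontrivial first order deformation
-/

open MvPolynomial Module

namespace Vale.Agent.P287T.Kr

open Vale.Agent.P287T.Cy Vale.Agent.P287T.Df Vale.Agent.P287Z.O Vale.Agent.P287Z.O.L
  Vale.Agent.P287Z.T

variable {ι : Type} [Fintype ι] [DecidableEq ι] {W : S6} {p : ι → ℤ} {d ξ : Matrix ι ι S6}

theorem one_ZZ : (1 : Matrix ι ι S6) ∈ ZZ p d p d 0 :=
  mem_ZZ.2 ⟨MM_one p, by rw [Matrix.mul_one, Matrix.one_mul]⟩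

/-- every closed endomorphism is homotopic to a scalar -/
theorem span_one (h1 : finrank ℂ (HH p d p d 0) = 1) {g : Matrix ι ι S6}
    (hg : g ∈ ZZ p d p d 0) :
    ∃ (c : ℂ) (k : Matrix ι ι S6), k ∈ MM p p (0 - 3) ∧ g = c • 1 + (d * k + k * d) := by
  by_cases h0 : (1 : Matrix ι ι S6) ∈ BB p d p d 0
  · obtain ⟨k, hk, e⟩ := mem_BB.1 h0
    refine ⟨0, g * k, MM_mul (by ring) (mem_ZZ.1 hg).1 hk, ?_⟩
    rw [zero_smul, zero_add, ← Matrix.mul_assoc, (mem_ZZ.1 hg).2, Matrix.mul_assoc,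
      Matrix.mul_assoc, ← Matrix.mul_add, ← e, Matrix.mul_one]
  · obtain ⟨c, hc⟩ := (finrank_eq_one_iff_of_nonzero'
      (Submodule.Quotient.mk ⟨1, one_ZZ⟩ : HH p d p d 0)
      (fun h => h0 ((Submodule.Quotient.mk_eq_zero
        ((BB p d p d 0).submoduleOf (ZZ p d p d 0))).1 h))).1 h1 (Submodule.Quotient.mk ⟨g, hg⟩)
    rw [← Submodule.Quotient.mk_smul, eq_comm, Submodule.Quotient.eq] at hc
    obtain ⟨k, hk, e⟩ := mem_BB.1 (show g - c • 1 ∈ BB p d p d 0 from hc)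
    exact ⟨c, k, hk, by rw [← e]; abel⟩

/-- the block of columns number `a` -/
def col {κ : Type} (g : Matrix κ (ι × Fin 2) S6) (a : Fin 2) : Matrix κ ι S6 :=
  fun i l => g i (l, a)

/-- the matrix with two blocks of columns -/
def two {κ : Type} (g0 g1 : Matrix κ ι S6) : Matrix κ (ι × Fin 2) S6 :=
  fun i x => ![g0, g1] x.2 i x.1

omit [Fintype ι] [DecidableEq ι] in
theorem col_ext {κ : Type} {g g' : Matrix κ (ι × Fin 2) S6} (h0 : col g 0 = col g' 0)
    (h1 : col g 1 = col g' 1) : g = g' := by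
  funext i ⟨l, a⟩
  fin_cases a
  exacts [congrFun (congrFun h0 i) l, congrFun (congrFun h1 i) l]

theorem jet_le (_ : IsMF W p d) (hξ : ξ ∈ MM p p 3) {D : Matrix (ι × Fin 2) (ι × Fin 2) S6}
    (h00 : ∀ i l, D (i, 0) (l, 0) = d i l) (h11 : ∀ i l, D (i, 1) (l, 1) = d i l)
    (h01 : ∀ i l, D (i, 0) (l, 1) = 0) (h10 : ∀ i l, D (i, 1) (l, 0) = ξ i l)
    (hD : IsMF W (fun x : ι × Fin 2 => p x.1) D) (h1 : finrank ℂ (HH p d p d 0) = 1)
    (hn : ¬ Au.Trv p d ξ) : finrank ℂ (HH (fun x : ι × Fin 2 => p x.1) D p d 0) ≤ 1 := by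
  have m0 : ∀ g : Matrix ι (ι × Fin 2) S6, col (g * D) 0 = col g 0 * d + col g 1 * ξ := fun g => by
    funext i l
    simp only [col, Matrix.mul_apply, Matrix.add_apply, Fintype.sum_prod_type, Fin.sum_univ_two,
      h00, h10, Finset.sum_add_distrib]
  have m1 : ∀ g : Matrix ι (ι × Fin 2) S6, col (g * D) 1 = col g 1 * d := fun g => by
    funext i l
    simp only [col, Matrix.mul_apply, Fintype.sum_prod_type, Fin.sum_univ_two, h01, h11,
      mul_zero, zero_add]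
  have ml : ∀ (g : Matrix ι (ι × Fin 2) S6) a, col (d * g) a = d * col g a := fun _ _ => rfl
  have hs : ξ * d + d * ξ = 0 := by
    funext i l
    have h2 := congrFun (congrFun hD.sq (i, 1)) (l, 0)
    rw [Matrix.smul_apply, Matrix.one_apply_ne (by simp), smul_zero] at h2
    simpa only [Matrix.mul_apply, Matrix.add_apply, Fintype.sum_prod_type, Fin.sum_univ_two,
      h00, h10, h11, Finset.sum_add_distrib, Matrix.zero_apply] using h2
  have hs' : d * ξ = -(ξ * d) := eq_neg_of_add_eq_zero_right hs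
  have he : two (1 : Matrix ι ι S6) 0 ∈ ZZ (fun x : ι × Fin 2 => p x.1) D p d 0 := by
    refine mem_ZZ.2 ⟨fun i ⟨l, a⟩ => ?_, col_ext ?_ ?_⟩
    · fin_cases a
      exacts [MM_one p i l, hga_zero _]
    · rw [m0, ml]
      change d * 1 = 1 * d + 0 * ξ
      simp
    · rw [m1, ml]
      change d * 0 = 0 * d
      simp
  refine finrank_le_one (Submodule.Quotient.mk ⟨_, he⟩) fun w => ?_
  obtain ⟨⟨g, hg⟩, rfl⟩ := Submodule.Quotient.mk_surjective _ w
  obtain ⟨g1, g2⟩ := mem_ZZ.1 hg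
  have e0 : d * col g 0 = col g 0 * d + col g 1 * ξ := by rw [← m0, ← g2, ml]
  have e1 : d * col g 1 = col g 1 * d := by rw [← m1, ← g2, ml]
  have c0 : col g 0 ∈ MM p p 0 := fun i l => g1 i (l, 0)
  obtain ⟨c, k, hk, e⟩ := span_one h1 (mem_ZZ.2 ⟨fun i l => g1 i (l, 1), e1⟩ :
    col g 1 ∈ ZZ p d p d 0)
  have hm : col g 0 - k * ξ ∈ MM p p 0 := sub_mem c0 (MM_mul (by ring) hk hξ)
  have e2 : d * (col g 0 - k * ξ) - (col g 0 - k * ξ) * d = c • ξ := by
    rw [Matrix.mul_sub, Matrix.sub_mul, e0, e, Matrix.add_mul, Matrix.add_mul, Matrix.smul_mul,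
      Matrix.one_mul, Matrix.mul_assoc k d, hs', Matrix.mul_assoc k ξ, Matrix.mul_assoc d k,
      Matrix.mul_neg]
    abel
  have hc : c = 0 := by
    by_contra hc
    refine hn ⟨(-c⁻¹) • (col g 0 - k * ξ), Submodule.smul_mem _ _ hm, ?_⟩
    rw [Matrix.smul_mul, Matrix.mul_smul, ← smul_sub, neg_smul, ← smul_neg, neg_sub, e2, smul_smul,
      inv_mul_cancel₀ hc, one_smul]
  rw [hc, zero_smul, sub_eq_zero] at e2
  rw [hc, zero_smul, zero_add] at e
  obtain ⟨c', k', hk', e'⟩ := span_one h1 (mem_ZZ.2 ⟨hm, e2⟩)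
  refine ⟨c', ?_⟩
  rw [← Submodule.Quotient.mk_smul, eq_comm, Submodule.Quotient.eq]
  change g - c' • two 1 0 ∈ BB _ D p d 0
  refine mem_BB.2 ⟨two k' k, fun i ⟨l, a⟩ => ?_, col_ext ?_ ?_⟩
  · fin_cases a
    exacts [hk' i l, hk i l]
  · change col g 0 - c' • 1 = col (d * two k' k) 0 + col (two k' k * D) 0
    rw [m0, ml]
    change _ = d * k' + (k' * d + k * ξ)
    rw [sub_eq_iff_eq_add.1 e']
    abel
  · change col g 1 - c' • 0 = col (d * two k' k) 1 + col (two k' k * D) 1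
    rw [m1, ml, smul_zero, sub_zero]
    exact e

end Vale.Agent.P287T.Kr
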