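import Vale.Agent.P287T.Sx.St
import Vale.Agent.P287T.Cy.Defs
import Vale.Agent.P287Z.O.L.Defs2

/-!
# Block matrices attached to a representation of the ring of coefficients
-/

open MvPolynomial Matrix

noncomputable section

namespace Vale.Agent.P287T.Kr

open Vale.Agent.P287T.Sx Vale.Agent.P287T.Cy Vale.Agent.P287Z.O

variable {D : Type} [CommRing D] [Algebra ℂ D]

/-- a linear form applied to all coefficients -/
def cf0 (l : D →ₗ[ℂ] ℂ) (g : Px D) : S6 := ∑ μ ∈ g.support, monomial μ (l (coeff μ g))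

theorem coeff_cf0 (l : D →ₗ[ℂ] ℂ) (g : Px D) (μ : Fin 6 →₀ ℕ) :
    coeff μ (cf0 l g) = l (coeff μ g) := by
  classical
  rw [cf0, coeff_sum, Finset.sum_eq_single μ]
  · rw [coeff_monomial, if_pos rfl]
  · intro ν _ h
    rw [coeff_monomial, if_neg h]
  · intro h
    rw [notMem_support_iff.1 h, map_zero, monomial_zero, coeff_zero]

/-- a linear form applied to all coefficients, as a linear map -/
def cf (l : D →ₗ[ℂ] ℂ) : Px D →ₗ[ℂ] S6 where
  toFun := cf0 l
  map_add' f g := by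
    ext μ
    simp only [coeff_cf0, coeff_add, map_add]
  map_smul' c f := by
    ext μ
    simp only [coeff_cf0, coeff_smul, map_smul, RingHom.id_apply]

theorem coeff_cf (l : D →ₗ[ℂ] ℂ) (g : Px D) (μ : Fin 6 →₀ ℕ) :
    coeff μ (cf l g) = l (coeff μ g) := coeff_cf0 l g μ

theorem cf_monomial (l : D →ₗ[ℂ] ℂ) (μ : Fin 6 →₀ ℕ) (b : D) :
    cf l (monomial μ b) = monomial μ (l b) := by
  classical
  ext ν
  rw [coeff_cf, coeff_monomial, coeff_monomial]
  split_ifs <;> simp

/-- only monomials of charge `n` occur -/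
def Ch (n : ℤ) (g : Px D) : Prop := ∀ μ, coeff μ g ≠ 0 → 2 * (μ.degree : ℤ) = n

theorem Ch.cf {n : ℤ} {g : Px D} (h : Ch n g) (l : D →ₗ[ℂ] ℂ) : V.Hg n (cf l g) :=
  L.hg_iff.2 fun μ hμ => h μ fun h0 => by
    rw [mem_support_iff, coeff_cf, h0, map_zero] at hμ
    exact hμ rfl

theorem weight_wx (μ : Fin 6 →₀ ℕ) : Finsupp.weight wx μ = (2 * (μ.degree : ℤ), 0) := by
  rw [Finsupp.weight_apply, Finsupp.sum, Finsupp.degree_apply]
  ext
  · simp [wx, Prod.fst_sum, Finset.mul_sum, mul_comm]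
  · simp [wx, Prod.snd_sum]

theorem ch_of_mem {e : Eu D} (he : ∀ γ : ℤ × ℤ, γ.1 ≠ 0 → e.H γ ≤ ⊥) {γ : ℤ × ℤ} {g : Px D}
    (h : g ∈ (e.mv wx).H γ) : Ch γ.1 g := fun μ hμ => by
  by_contra hc
  have := Eu.mem_mv.1 h μ
  rw [weight_wx] at this
  exact hμ (he _ (fun h0 => hc (by simp only [Prod.fst_sub] at h0; omega)) this)

variable {κ : Type} [Fintype κ] [DecidableEq κ] (ρ : D →ₐ[ℂ] Matrix κ κ ℂ)

/-- a matrix entry of the representation -/
def en (s t : κ) : D →ₗ[ℂ] ℂ := (Matrix.entryLinearMap ℂ ℂ s t) ∘ₗ ρ.toLinearMap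

theorem en_apply (s t : κ) (b : D) : en ρ s t b = ρ b s t := rfl

/-- the representation on polynomials -/
def rM : Px D →ₗ[ℂ] Matrix κ κ S6 where
  toFun g := Matrix.of fun s t => cf (en ρ s t) g
  map_add' f g := by ext1 s t; simp
  map_smul' c f := by ext1 s t; simp

theorem rM_apply (g : Px D) (s t : κ) : rM ρ g s t = cf (en ρ s t) g := rfl

theorem coeff_rM (g : Px D) (s t : κ) (μ : Fin 6 →₀ ℕ) :
    coeff μ (rM ρ g s t) = ρ (coeff μ g) s t := coeff_cf _ _ _

theorem rM_mul (f g : Px D) : rM ρ (f * g) = rM ρ f * rM ρ g := by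
  classical
  ext s t μ
  rw [coeff_rM, coeff_mul, map_sum, Matrix.sum_apply, Matrix.mul_apply, coeff_sum]
  simp only [coeff_mul, coeff_rM, map_mul, Matrix.mul_apply]
  exact Finset.sum_comm

theorem rM_map (f : S6) : rM ρ (MvPolynomial.map (algebraMap ℂ D) f) = f • (1 : Matrix κ κ S6) := by
  ext s t μ
  rw [coeff_rM, coeff_map, AlgHom.commutes, Matrix.algebraMap_matrix_apply, Matrix.smul_apply,
    Matrix.one_apply]
  split_ifs <;> simp

theorem rM_map_mul (f : S6) (g : Px D) :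
    rM ρ (MvPolynomial.map (algebraMap ℂ D) f * g) = f • rM ρ g := by
  rw [rM_mul, rM_map, Matrix.smul_mul, Matrix.one_mul]

theorem rM_one : rM ρ 1 = 1 := by
  have := rM_map ρ 1
  rwa [map_one, one_smul] at this

theorem rM_comp {B : Type} [CommRing B] [Algebra ℂ B] (f : B →ₐ[ℂ] D) (g : Px B) :
    rM ρ (MvPolynomial.map (f : B →+* D) g) = rM (ρ.comp f) g := by
  ext s t μ
  rw [coeff_rM, coeff_rM, coeff_map]
  rfl

variable {a b c : Type}

/-- the block matrix -/
def blk (g : Matrix a b (Px D)) : Matrix (a × κ) (b × κ) S6 :=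
  Matrix.of fun x y => rM ρ (g x.1 y.1) x.2 y.2

theorem blk_apply (g : Matrix a b (Px D)) (x : a × κ) (y : b × κ) :
    blk ρ g x y = rM ρ (g x.1 y.1) x.2 y.2 := rfl

theorem blk_mul [Fintype b] (g : Matrix a b (Px D)) (h : Matrix b c (Px D)) :
    blk ρ (g * h) = blk ρ g * blk ρ h := by
  ext1 x y
  rw [blk_apply, Matrix.mul_apply, map_sum, Matrix.sum_apply, Matrix.mul_apply,
    Fintype.sum_prod_type]
  simp only [rM_mul, Matrix.mul_apply, blk_apply]

theorem blk_add (g h : Matrix a b (Px D)) : blk ρ (g + h) = blk ρ g + blk ρ h := by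
  ext1 x y
  simp only [blk_apply, Matrix.add_apply, map_add]

theorem blk_sub (g h : Matrix a b (Px D)) : blk ρ (g - h) = blk ρ g - blk ρ h := by
  ext1 x y
  simp only [blk_apply, Matrix.sub_apply, map_sub]

theorem blk_zero : blk ρ (0 : Matrix a b (Px D)) = 0 := by
  ext1 x y
  simp only [blk_apply, Matrix.zero_apply, map_zero]

theorem blk_one [DecidableEq a] : blk ρ (1 : Matrix a a (Px D)) = 1 := by
  ext1 x y
  rw [blk_apply, Matrix.one_apply, Matrix.one_apply]
  by_cases h : x.1 = y.1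
  · rw [if_pos h, rM_one, Matrix.one_apply]
    simp only [Prod.ext_iff, h, true_and]
  · rw [if_neg h, if_neg fun e => h (congrArg Prod.fst e), map_zero, Matrix.zero_apply]

theorem blk_smul (f : S6) (g : Matrix a b (Px D)) :
    blk ρ (MvPolynomial.map (algebraMap ℂ D) f • g) = f • blk ρ g := by
  ext1 x y
  rw [blk_apply, Matrix.smul_apply, smul_eq_mul, rM_map_mul]
  rfl

theorem blk_cg {W : S6} {g h : Matrix a b (Px D)}
    (e : Cg (MvPolynomial.map (algebraMap ℂ D) W) g h) : Cg W (blk ρ g) (blk ρ h) := fun x y => by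
  obtain ⟨u, hu⟩ := e x.1 y.1
  refine ⟨rM ρ u x.2 y.2, ?_⟩
  rw [blk_apply, blk_apply, ← Matrix.sub_apply, ← map_sub, hu, rM_map_mul]
  rfl

theorem blk_mm {B : Type} [CommRing B] [Algebra ℂ B] (f : B →ₐ[ℂ] D) (g : Matrix a b (Px B)) :
    blk ρ (mm (f : B →+* D) g) = blk (ρ.comp f) g := by
  ext1 x y
  exact congrFun (congrFun (rM_comp ρ f _) _) _

theorem blk_hg {q : b → ℤ} {q' : a → ℤ} {g : Matrix a b (Px D)}
    (h : ∀ i j, Ch (q j - q' i) (g i j)) :
    L.HgM (fun y : b × κ => q y.1) (fun x : a × κ => q' x.1) (blk ρ g) :=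
  fun x y => (h x.1 y.1).cf _

/-- the vector attached to a vector and a column -/
def vec (t₀ : κ) : (a → Px D) →ₗ[ℂ] (a × κ → S6) where
  toFun v x := rM ρ (v x.1) x.2 t₀
  map_add' u v := by funext x; simp
  map_smul' z v := by funext x; simp

theorem vec_apply (t₀ : κ) (v : a → Px D) (x : a × κ) : vec ρ t₀ v x = rM ρ (v x.1) x.2 t₀ := rfl

theorem vec_mulVec [Fintype b] (t₀ : κ) (g : Matrix a b (Px D)) (v : b → Px D) :
    vec ρ t₀ (g *ᵥ v) = blk ρ g *ᵥ vec ρ t₀ v := by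
  funext x
  rw [vec_apply, Matrix.mulVec, dotProduct, map_sum, Matrix.sum_apply, Matrix.mulVec, dotProduct,
    Fintype.sum_prod_type]
  simp only [rM_mul, Matrix.mul_apply, blk_apply, vec_apply]

theorem vec_smul (t₀ : κ) (f : S6) (v : a → Px D) :
    vec ρ t₀ (MvPolynomial.map (algebraMap ℂ D) f • v) = f • vec ρ t₀ v := by
  funext x
  rw [vec_apply, Pi.smul_apply, smul_eq_mul, rM_map_mul]
  rfl

theorem cf_surj {t₀ : κ} (h : Function.Surjective fun (b : D) (s : κ) => ρ b s t₀)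
    (w : κ → S6) : ∃ g : Px D, ∀ s, rM ρ g s t₀ = w s := by
  classical
  choose β hβ using h
  refine ⟨∑ μ ∈ Finset.univ.biUnion fun s => (w s).support,
    monomial μ (β fun s => coeff μ (w s)), fun s => ?_⟩
  ext ν
  rw [coeff_rM, coeff_sum]
  by_cases hν : ν ∈ Finset.univ.biUnion fun s => (w s).support
  · rw [Finset.sum_eq_single_of_mem ν hν fun μ _ hμ => by rw [coeff_monomial, if_neg hμ],
      coeff_monomial, if_pos rfl]
    exact congrFun (hβ _) s
  · rw [Finset.sum_eq_zero fun μ hμ => by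
      rw [coeff_monomial, if_neg fun e : μ = ν => hν (e ▸ hμ)], map_zero, Matrix.zero_apply]
    exact (notMem_support_iff.1 fun h => hν (Finset.mem_biUnion.2 ⟨s, Finset.mem_univ _, h⟩)).symm

theorem vec_surj {t₀ : κ} (h : Function.Surjective fun (b : D) (s : κ) => ρ b s t₀) :
    Function.Surjective (vec (a := a) ρ t₀) := fun w => by
  choose g hg using fun i : a => cf_surj ρ h fun s => w (i, s)
  exact ⟨g, funext fun x => hg x.1 x.2⟩

end Vale.Agent.P287T.Kr
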