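import Vale.Agent.P287T.Fm.Defs
import Mathlib.RingTheory.Nullstellensatz

/-!
# The rank in a fibrewise exact family is constant
-/

open MvPolynomial
open Module (finrank)

namespace Vale.Agent.P287T.Kr

open Vale.Agent.P287Z Vale.Agent.P287T.Fm

variable {ν : ℕ} {I : Ideal (Gr.Sn ν)} {V0 V1 V2 : Type} [AddCommGroup V0] [Module ℂ V0]
  [AddCommGroup V1] [Module ℂ V1] [AddCommGroup V2] [Module ℂ V2]

theorem rk_semi (φ : (v : Fin ν → ℂ) → Pt I v → V1 →ₗ[ℂ] V0)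
    (hφ : ∀ v h, Module.Finite ℂ (LinearMap.range (φ v h)))
    (h : ∀ x (l : Module.Dual ℂ V0), ∃ P : Gr.Sn ν, ∀ v h, l (φ v h x) = eval v P)
    {v₀ : Fin ν → ℂ} (h₀ : Pt I v₀) : ∃ g : Gr.Sn ν, eval v₀ g ≠ 0 ∧ ∀ v h, eval v g ≠ 0 →
      finrank ℂ (LinearMap.range (φ v₀ h₀)) ≤ finrank ℂ (LinearMap.range (φ v h)) := by
  let b := Module.finBasis ℂ (LinearMap.range (φ v₀ h₀))
  choose x hx using fun i => (b i).2
  obtain ⟨β, hβ⟩ := (LinearMap.range (φ v₀ h₀)).subtype.exists_leftInverse_of_injective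
    (Submodule.ker_subtype _)
  choose p hp using fun i j => h (x j) (b.coord i ∘ₗ β)
  have h1 : ∀ v h, eval v (Matrix.of p).det =
      (Matrix.of fun i j => (b.coord i ∘ₗ β) (φ v h (x j))).det := fun v h =>
    (RingHom.map_det _ _).trans (congrArg _ (Matrix.ext fun i j => (hp i j v h).symm))
  refine ⟨(Matrix.of p).det, ?_, fun v h hv => ?_⟩
  · rw [h1 _ h₀, show (Matrix.of fun i j => (b.coord i ∘ₗ β) (φ v₀ h₀ (x j))) = 1 from
      Matrix.ext fun i j => by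
        rw [Matrix.of_apply, hx, LinearMap.comp_apply, show β (b j) = b j from congr($hβ (b j))]
        simp [Finsupp.single_apply, Matrix.one_apply, eq_comm], Matrix.det_one]
    exact one_ne_zero
  · rw [h1 _ h] at hv
    exact (Fintype.card_fin _).symm.trans_le (LinearIndependent.of_comp
      (v := fun j => (⟨φ v h (x j), _, rfl⟩ : LinearMap.range (φ v h)))
      ((LinearMap.pi fun i => b.coord i ∘ₗ β) ∘ₗ Submodule.subtype _)
      (Matrix.linearIndependent_cols_of_det_ne_zero hv)).fintype_card_le_finrank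

theorem rk_ev {v : Fin ν → ℂ} (h : Pt I v) {f : Gr.Sn ν} (hf : f ∈ I) : eval v f = 0 := by
  rw [← sum_homogeneousComponent f, map_sum]
  exact Finset.sum_eq_zero fun n _ => h.2 hf n

theorem rk_pt [hH : Fact (IsHom I)] (hp : I.IsPrime) {v : Fin ν → ℂ} (hv : Pt I v)
    {g : Gr.Sn ν} (hg : g ∉ I) : ∃ u, Pt I u ∧ eval u g ≠ 0 := by
  obtain ⟨j, hj⟩ := Function.ne_iff.1 hv.1
  have h1 : g * X j ∉ vanishingIdeal ℂ (zeroLocus ℂ I) := by
    rw [vanishingIdeal_zeroLocus_eq_radical, hp.radical]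
    exact fun h => (hp.mem_or_mem h).elim hg fun h => hj ((eval_X j).symm.trans (rk_ev hv h))
  rw [mem_vanishingIdeal_iff] at h1
  push Not at h1
  obtain ⟨u, hu, h2⟩ := h1
  rw [aeval_eq_eval, map_mul, eval_X] at h2
  exact ⟨u, ⟨fun h => right_ne_zero_of_mul h2 (congrFun h j),
    fun f hf n => hu _ (hH.out f hf n)⟩, left_ne_zero_of_mul h2⟩

theorem rank_const [Fact (IsHom I)] (hI : I.IsPrime) [Module.Finite ℂ V1]
    (f : (v : Fin ν → ℂ) → Pt I v → V2 →ₗ[ℂ] V1) (g : (v : Fin ν → ℂ) → Pt I v → V1 →ₗ[ℂ] V0)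
    (hf : ∀ x (l : Module.Dual ℂ V1), ∃ P : Gr.Sn ν, ∀ v h, l (f v h x) = eval v P)
    (hg : ∀ x (l : Module.Dual ℂ V0), ∃ P : Gr.Sn ν, ∀ v h, l (g v h x) = eval v P)
    (ex : ∀ v h, LinearMap.range (f v h) = LinearMap.ker (g v h)) :
    ∃ r, ∀ v h, finrank ℂ (LinearMap.range (f v h)) = r := by
  by_cases h0 : ∃ v, Pt I v
  swap
  · exact ⟨0, fun v h => absurd ⟨v, h⟩ h0⟩
  obtain ⟨v', hv'⟩ := h0
  refine ⟨finrank ℂ (LinearMap.range (f v' hv')), fun v hv => ?_⟩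
  obtain ⟨g₁, h1, h2⟩ := rk_semi f (fun _ _ => inferInstance) hf hv
  obtain ⟨g₂, h3, h4⟩ := rk_semi g (fun _ _ => inferInstance) hg hv
  obtain ⟨g₃, h5, h6⟩ := rk_semi f (fun _ _ => inferInstance) hf hv'
  obtain ⟨g₄, h7, h8⟩ := rk_semi g (fun _ _ => inferInstance) hg hv'
  obtain ⟨u, hu, h9⟩ := rk_pt hI hv (g := g₁ * g₂ * (g₃ * g₄)) fun h =>
    (hI.mem_or_mem h).elim (fun h => mul_ne_zero h1 h3 ((map_mul _ _ _).symm.trans (rk_ev hv h)))
      fun h => mul_ne_zero h5 h7 ((map_mul _ _ _).symm.trans (rk_ev hv' h))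
  simp only [map_mul, mul_ne_zero_iff] at h9
  have a1 := h2 u hu h9.1.1
  have a2 := h4 u hu h9.1.2
  have a3 := h6 u hu h9.2.1
  have a4 := h8 u hu h9.2.2
  have b1 := (g u hu).finrank_range_add_finrank_ker
  have b2 := (g v hv).finrank_range_add_finrank_ker
  have b3 := (g v' hv').finrank_range_add_finrank_ker
  rw [← ex] at b1 b2 b3
  lia

end Vale.Agent.P287T.Kr
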