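import Vale.Agent.P287T.Kr.Quo
import Vale.Agent.P287T.Kr.Rank
import Vale.Agent.P287T.Fm.Ten2

/-!
# The fibres of the kernel have constant dimension
-/

set_option backward.isDefEq.respectTransparency false
set_option linter.unusedSectionVars false

open CategoryTheory Limits MvPolynomial Matrix Module

noncomputable section

namespace Vale.Agent.P287T.Kr

open Vale.Agent.P287T.Sx Vale.Agent.P287T.Cy Vale.Agent.P287T.Fm Vale.Agent.P287Z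
  Vale.Agent.P287Z.O.V

variable {ν : ℕ}

theorem isQ_equiv {N : Gr.GrS ν} {𝔞 : Ideal (Gr.Sn ν)} {Φ Ψ : Type} [AddCommGroup Φ] [Module ℂ Φ]
    [AddCommGroup Ψ] [Module ℂ Ψ] {ev : ∀ m : ℤ, N.obj ⟨m⟩ →ₗ[ℂ] Φ} (h : IsQ N 𝔞 ev)
    (e : Φ ≃ₗ[ℂ] Ψ) : IsQ N 𝔞 fun m => e.toLinearMap ∘ₗ ev m := by
  have e1 : (DFinsupp.lsum ℂ fun m => e.toLinearMap ∘ₗ ev m : (Π₀ m : ℤ, N.obj ⟨m⟩) →ₗ[ℂ] Ψ)
      = e.toLinearMap ∘ₗ DFinsupp.lsum ℂ ev := DFinsupp.lhom_ext fun m x => by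
    rw [LinearMap.comp_apply, DFinsupp.lsum_single, DFinsupp.lsum_single]
    rfl
  refine ⟨?_, fun t => ?_⟩ <;> rw [e1]
  · exact e.surjective.comp h.1
  · exact e.map_eq_zero_iff.trans (h.2 t)

section Poly

variable {B : Type} [CommRing B] [Algebra ℂ B] {q : Gr.Sn ν →ₐ[ℂ] B} (hq : Function.Surjective q)
  {T : Type} {pt : T → Fin ν → ℂ} {ρ : T → B →ₐ[ℂ] Matrix (Fin 1) (Fin 1) ℂ}
  (hρ : ∀ t g, ρ t (q g) 0 0 = eval (pt t) g) {a b : Type} [Fintype a] [Fintype b]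

include hq hρ

theorem poly_rM (L : S6 →ₗ[ℂ] ℂ) (r : Px B) :
    ∃ P : Gr.Sn ν, ∀ t, L (rM (ρ t) r 0 0) = eval (pt t) P := by
  induction r using MvPolynomial.induction_on' with
  | monomial μ c =>
    obtain ⟨g, rfl⟩ := hq c
    refine ⟨C (L (monomial μ 1)) * g, fun t => ?_⟩
    rw [rM_apply, cf_monomial, en_apply, hρ, map_mul, eval_C, mul_comm, ← smul_eq_mul, ← map_smul,
      smul_monomial, smul_eq_mul, mul_one]
  | add f g hf hg =>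
    obtain ⟨P, hP⟩ := hf
    obtain ⟨P', hP'⟩ := hg
    exact ⟨P + P', fun t => by rw [map_add, Matrix.add_apply, map_add, map_add, hP, hP']⟩

theorem poly_blk (L : (a × Fin 1 → S6) →ₗ[ℂ] ℂ) (δ : Matrix a b (Px B)) (x : b × Fin 1 → S6) :
    ∃ P : Gr.Sn ν, ∀ t, L (blk (ρ t) δ *ᵥ x) = eval (pt t) P := by
  classical
  choose P hP using fun y : a × Fin 1 => poly_rM hq hρ (L ∘ₗ LinearMap.single ℂ (fun _ => S6) y)
    ((δ *ᵥ fun j => zx B (x (j, 0))) y.1)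
  refine ⟨∑ y, P y, fun t => ?_⟩
  have e : x = vec (ρ t) 0 fun j => zx B (x (j, 0)) := funext fun y => by
    obtain ⟨j, s⟩ := y
    obtain rfl := Subsingleton.elim s 0
    rw [vec_apply, zx_apply, rM_map, Matrix.smul_apply, Matrix.one_apply_eq, smul_eq_mul, mul_one]
  rw [congrArg (blk (ρ t) δ *ᵥ ·) e, ← vec_mulVec, ← Finset.univ_sum_single (vec _ _ _), map_sum,
    map_sum]
  refine Finset.sum_congr rfl fun y _ => ?_
  rw [← hP, vec_apply, Subsingleton.elim y.2 0]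
  rfl

end Poly

variable {W : S6} [Fact (W.IsHomogeneous 3)] {ι a0 a1 a2 : Type} [Fintype ι] [DecidableEq ι]
  [Fintype a0] [Fintype a1] [DecidableEq a1] [Fintype a2]

theorem fin_fr (q : a1 → ℤ) (e : ℤ) : Module.Finite ℂ ((O.L.FrO W q).obj ⟨e⟩) :=
  fin_obj (N := (O.L.FrA W q).obj) (O.L.FrA W q).property.2 e

variable (W) in
/-- the boundaries -/
def bdr (q : a1 → ℤ) (δ : Matrix a1 a2 S6) (e : ℤ) : (a2 → S6) →ₗ[ℂ] (O.L.FrO W q).obj ⟨e⟩ :=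
  hp W q e ∘ₗ δ.mulVecLin.restrictScalars ℂ

theorem bdr_apply (q : a1 → ℤ) (δ : Matrix a1 a2 S6) (e : ℤ) (u : a2 → S6) :
    bdr W q δ e u = hp W q e (δ *ᵥ u) := rfl

theorem mem_bdr {q : a1 → ℤ} {δ : Matrix a1 a2 S6} {e : ℤ} {v : a1 → S6}
    (h : ∀ i, Hg (2 * e - q i) (v i)) (h' : ∃ u, ∀ i, W ∣ v i - (δ *ᵥ u) i) :
    O.L.FrO.mk W v h ∈ LinearMap.range (bdr W q δ e) := by
  obtain ⟨u, hu⟩ := h'
  refine ⟨u, ?_⟩
  rw [bdr_apply, ← hp_self, eq_comm, ← sub_eq_zero, ← map_sub]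
  exact hp_dvd hg6 q e hu

variable (R : Raw W ι a0 a1 a2)

theorem Raw.rank (e : ℤ) : finrank ℂ (R.Q.obj.obj ⟨e⟩) +
    finrank ℂ (LinearMap.range (bdr W R.c1 R.δ1 e)) = finrank ℂ ((O.L.FrO W R.c1).obj ⟨e⟩) := by
  have := fin_fr (W := W) R.c1 e
  let f : (O.L.FrO W R.c1).obj ⟨e⟩ →ₗ[ℂ] R.Q.obj.obj ⟨e⟩ := (R.π.hom.app ⟨e⟩).hom
  have h1 : LinearMap.range f = ⊤ := LinearMap.range_eq_top.2 (O.L.GA_app_surjective W R.π e)
  have h2 : LinearMap.range (bdr W R.c1 R.δ1 e) = LinearMap.ker f := by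
    refine le_antisymm ?_ fun x hx => ?_
    · rintro _ ⟨u, rfl⟩
      rw [bdr_apply, hp_mulVec W R.hg1]
      exact congr(($(R.dπ)).hom.app ⟨e⟩ _)
    · obtain ⟨v, h, rfl⟩ := O.L.FrO.mk_surj W x
      exact mem_bdr h (R.π_zero hx)
  rw [h2, ← f.finrank_range_add_finrank_ker, h1, finrank_top]

theorem Raw.ex (h0 : W ≠ 0) (e : ℤ) : LinearMap.range (bdr W R.c1 R.δ1 e) =
    LinearMap.ker ((O.L.matO W R.δ0 R.hg0).app ⟨e⟩).hom := by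
  refine le_antisymm ?_ fun x hx => ?_
  · rintro _ ⟨u, rfl⟩
    refine (hp_mulVec W R.hg0 e _).symm.trans (hp_dvd hg6 _ e fun i => ?_)
    have := dvd_mulVec R.δδ u i
    rwa [zero_mulVec, Pi.zero_apply, sub_zero, ← mulVec_mulVec] at this
  · obtain ⟨v, h, rfl⟩ := O.L.FrO.mk_surj W x
    exact mem_bdr h (R.exact h0 ((O.L.FrO.mk_eq_zero W).1 hx))

omit R in
/-- **LF** -/
theorem lf_of {I : Ideal (Gr.Sn ν)} [Fact (IsHom I)] (hI : I.IsPrime) (h0 : W ≠ 0) (K : Ker W I)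
    {B : Type} [CommRing B] [Algebra ℂ B] {q : Gr.Sn ν →ₐ[ℂ] B} (hq : Function.Surjective q)
    (ρ : (Fin ν → ℂ) → B →ₐ[ℂ] Matrix (Fin 1) (Fin 1) ℂ)
    (hρ : ∀ v, Pt I v → ∀ g, ρ v (q g) 0 0 = eval v g) (δ0 : Matrix a0 a1 (Px B))
    (δ1 : Matrix a1 a2 (Px B)) (c0 : a0 × Fin 1 → ℤ) (c1 : a1 × Fin 1 → ℤ)
    (R : (Fin ν → ℂ) → Raw W ι (a0 × Fin 1) (a1 × Fin 1) (a2 × Fin 1))
    (e0 : ∀ v, (R v).c0 = c0) (e1 : ∀ v, (R v).c1 = c1) (d0 : ∀ v, (R v).δ0 = blk (ρ v) δ0)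
    (d1 : ∀ v, (R v).δ1 = blk (ρ v) δ1) (hK : ∀ v, Pt I v → K.Quo (mv v) (R v).Q) (e : ℤ) :
    LF I (NY K.N e) := by
  have := fin_fr (W := W) c1 e
  have hg : ∀ v, O.L.HgM c1 (fun j => c0 j - 3) (blk (ρ v) δ0) := fun v => by
    rw [← e0 v, ← e1 v, ← d0]
    exact (R v).hg0
  have hp' : ∀ (t : {v // Pt I v}) g, ρ t.1 (q g) 0 0 = eval t.1 g := fun t => hρ t.1 t.2
  obtain ⟨r, hr⟩ := rank_const hI (fun v _ => bdr W c1 (blk (ρ v) δ1) e)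
    (fun v _ => ((O.L.matO W _ (hg v)).app ⟨e⟩).hom) (fun x l => by
      obtain ⟨P, hP⟩ := poly_blk hq hp' (l ∘ₗ hp W c1 e) δ1 x
      exact ⟨P, fun v h => hP ⟨v, h⟩⟩) (fun x l => by
      obtain ⟨w, rfl⟩ := hp_surj W c1 e x
      obtain ⟨P, hP⟩ := poly_blk hq hp' (l ∘ₗ hp W (fun j => c0 j - 3) e) δ0 w
      exact ⟨P, fun v h => (congrArg l (hp_mulVec W (hg v) e w).symm).trans (hP ⟨v, h⟩)⟩)
    fun v _ => by
      have k : ∀ {c0 c1 δ0 δ1} (_ : (R v).c0 = c0) (_ : (R v).c1 = c1) (_ : (R v).δ0 = δ0)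
          (_ : (R v).δ1 = δ1) (h : O.L.HgM c1 (fun j => c0 j - 3) δ0),
          LinearMap.range (bdr W c1 δ1 e) = LinearMap.ker ((O.L.matO W δ0 h).app ⟨e⟩).hom := by
        rintro _ _ _ _ rfl rfl rfl rfl _
        exact (R v).ex h0 e
      exact k (e0 v) (e1 v) (d0 v) (d1 v) _
  refine ⟨finrank ℂ ((O.L.FrO W c1).obj ⟨e⟩) - r, fun v hv => ?_⟩
  obtain ⟨ev, hev⟩ := hK v hv
  have := fin_obj (N := (R v).Q.obj) (R v).Q.property.2 e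
  have h1 := (R v).rank e
  rw [e1, d1, hr v hv] at h1
  exact ⟨_, isQ_equiv (hev e) (LinearEquiv.ofFinrankEq _ _ (by
    rw [Module.finrank_fin_fun]
    exact Nat.eq_sub_of_add_eq h1))⟩

end Vale.Agent.P287T.Kr
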