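import Vale.Agent.P287T.Fm.Defs
import Mathlib.RingTheory.Smooth.Basic
import Mathlib.Algebra.DualNumber

/-!
# Tangent vectors lift along formally smooth maps
-/

open MvPolynomial

namespace Vale.Agent.P287T.Kr

open TrivSqZeroExt

variable {ν : ℕ}

theorem dv_C (v t : Fin ν → ℂ) (c : ℂ) : Fm.dv v t (C c) = 0 := by simp [Fm.dv]

theorem dv_X (v t : Fin ν → ℂ) (i : Fin ν) : Fm.dv v t (X i) = t i := by
  classical
  simp [Fm.dv, pderiv_X, Pi.single_apply, apply_ite (eval v)]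

/-- the point with values in the dual numbers -/
noncomputable def dn (v t : Fin ν → ℂ) : MvPolynomial (Fin ν) ℂ →ₐ[ℂ] DualNumber ℂ :=
  aeval fun i => (inl (v i) + inr (t i) : DualNumber ℂ)

theorem dn_eq (v t : Fin ν → ℂ) (g : MvPolynomial (Fin ν) ℂ) :
    (dn v t g).fst = eval v g ∧ (dn v t g).snd = Fm.dv v t g := by
  induction g using MvPolynomial.induction_on with
  | C c => simp [dn, dv_C, algebraMap_eq_inl']
  | add p q hp hq => simp [Fm.dv_add, hp.1, hp.2, hq.1, hq.2]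
  | mul_X p i hp =>
    have h1 : dn v t (X i) = (inl (v i) + inr (t i) : DualNumber ℂ) := aeval_X _ _
    rw [map_mul, Fm.dv_mul, fst_mul, DualNumber.snd_mul, hp.1, hp.2, h1, dv_X]
    simp [mul_comm]

theorem lift_der (I : Ideal (MvPolynomial (Fin ν) ℂ)) (D : Type) [CommRing D] [Algebra ℂ D]
    [Algebra (MvPolynomial (Fin ν) ℂ ⧸ I) D] [IsScalarTower ℂ (MvPolynomial (Fin ν) ℂ ⧸ I) D]
    [Algebra.FormallySmooth (MvPolynomial (Fin ν) ℂ ⧸ I) D] (φ : D →ₐ[ℂ] ℂ) (v t : Fin ν → ℂ)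
    (hv : ∀ i, φ (algebraMap _ D (Ideal.Quotient.mk I (X i))) = v i)
    (ht : ∀ g ∈ I, Fm.dv v t g = 0) :
    ∃ δ : D →ₗ[ℂ] ℂ, (∀ a b, δ (a * b) = φ a * δ b + φ b * δ a) ∧
      ∀ g, δ (algebraMap _ D (Ideal.Quotient.mk I g)) = Fm.dv v t g := by
  have h0 : ∀ g, φ (algebraMap _ D (Ideal.Quotient.mk I g)) = eval v g := fun g => by
    have e : φ.comp ((IsScalarTower.toAlgHom ℂ (MvPolynomial (Fin ν) ℂ ⧸ I) D).comp
        (Ideal.Quotient.mkₐ ℂ I)) = aeval v := algHom_ext fun i => (hv i).trans (aeval_X v i).symm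
    exact (DFunLike.congr_fun e g).trans (by rw [aeval_eq_eval])
  let ρ : (MvPolynomial (Fin ν) ℂ ⧸ I) →ₐ[ℂ] DualNumber ℂ :=
    Ideal.Quotient.liftₐ I (dn v t) fun g hg => TrivSqZeroExt.ext
      (by rw [(dn_eq v t g).1, ← h0, Ideal.Quotient.eq_zero_iff_mem.2 hg, map_zero, map_zero]; rfl)
      ((dn_eq v t g).2.trans (ht g hg))
  let _ : Algebra (MvPolynomial (Fin ν) ℂ ⧸ I) (DualNumber ℂ) := ρ.toRingHom.toAlgebra
  let _ : Algebra (MvPolynomial (Fin ν) ℂ ⧸ I) ℂ :=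
    ((φ : D →+* ℂ).comp (algebraMap (MvPolynomial (Fin ν) ℂ ⧸ I) D)).toAlgebra
  let φ' : D →ₐ[MvPolynomial (Fin ν) ℂ ⧸ I] ℂ := { (φ : D →+* ℂ) with commutes' := fun _ => rfl }
  let π : DualNumber ℂ →ₐ[MvPolynomial (Fin ν) ℂ ⧸ I] ℂ :=
    { (fstHom ℂ ℂ ℂ : DualNumber ℂ →+* ℂ) with
      commutes' := fun a => by
        obtain ⟨g, rfl⟩ := Ideal.Quotient.mk_surjective a
        exact (dn_eq v t g).1.trans (h0 g).symm }
  have hπ : Function.Surjective π := fun c => ⟨inl c, rfl⟩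
  have hn : IsNilpotent (RingHom.ker (π : DualNumber ℂ →+* ℂ)) := ⟨2, by
    rw [Submodule.pow_succ, Submodule.pow_succ, Submodule.pow_zero, Submodule.one_mul,
      Ideal.zero_eq_bot, eq_bot_iff, Ideal.mul_le]
    intro a ha b hb
    have ha' : a.fst = 0 := ha
    have hb' : b.fst = 0 := hb
    exact TrivSqZeroExt.ext (by simp [ha']) (by simp [ha', hb'])⟩
  let F := Algebra.FormallySmooth.liftOfSurjective φ' π hπ hn
  have hF : ∀ a, (F a).fst = φ a := fun a =>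
    Algebra.FormallySmooth.liftOfSurjective_apply φ' π hπ hn a
  have hc : ∀ c : ℂ, F (algebraMap ℂ D c) = algebraMap ℂ _ c := fun c => by
    rw [IsScalarTower.algebraMap_apply ℂ (MvPolynomial (Fin ν) ℂ ⧸ I) D, F.commutes]
    exact ρ.commutes c
  refine ⟨⟨⟨fun a => (F a).snd, fun a b => by rw [map_add, snd_add]⟩, fun c a => ?_⟩,
    fun a b => ?_, fun g => ?_⟩
  · change (F (c • a)).snd = c • (F a).snd
    rw [Algebra.smul_def, map_mul, hc, ← Algebra.smul_def, snd_smul]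
  · change (F (a * b)).snd = φ a * (F b).snd + φ b * (F a).snd
    rw [map_mul, DualNumber.snd_mul, hF, hF, mul_comm (F a).snd]
  · change (F _).snd = _
    rw [F.commutes]
    exact (dn_eq v t g).2

end Vale.Agent.P287T.Kr
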