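import Vale.Agent.P287T.Fm.Defs
import Vale.Agent.P287T.Kx.St
import Vale.Agent.P287Q.Pv.Prm

/-!
# The ideal of the cone over a connected projective manifold
-/

open MvPolynomial Module Filter Topology

namespace Vale.Agent.P287T.Kr

open Vale.Agent.P287Q Vale.Agent.P287Q.Cub Vale.Agent.P287Z Vale.Agent.P287T.Kx
  Vale.Agent.P269.Holo

variable {ν n : ℕ} {Z : Set (Fin ν → ℂ)}

theorem pt_iff' (hZ : PV (π₀ (Fin ν)) Z n) (v : Fin ν → ℂ) :
    Fm.Pt (vanishingIdeal ℂ Z) v ↔ v ∈ Z := by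
  constructor
  · rintro ⟨h0, h1⟩
    by_contra hv
    obtain ⟨i, hi⟩ := Function.ne_iff.1 h0
    obtain ⟨P, p1, p2⟩ := Chow1.off hZ (fun _ => ⟨i, rfl, hi⟩) hv
    refine p2 ?_
    rw [← sum_homogeneousComponent P, map_sum]
    exact Finset.sum_eq_zero fun k _ => h1 (mem_van.2 p1) k
  · intro hv
    obtain ⟨i, hi⟩ := ne_zero hZ.toMC hv
    exact ⟨Function.ne_iff.2 ⟨i, hi⟩, fun f hf k => mem_van.1 (isHom hZ.toMC f hf k) v hv⟩

/-- the identity theorem on a connected submanifold -/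
theorem ident {m : ℕ} (hm : ∀ z ∈ Z, MfdAt Z m z) (hc : IsPreconnected Z)
    {f : (Fin ν → ℂ) → ℂ} (hf : ∀ z ∈ Z, AnalyticAt ℂ f z) {z₀ : Fin ν → ℂ} (h₀ : z₀ ∈ Z)
    (h : ∀ᶠ y in 𝓝[Z] z₀, f y = 0) : ∀ z ∈ Z, f z = 0 := by
  have := Subtype.preconnectedSpace hc
  let S : Set Z := {z | ∀ᶠ y in 𝓝[Z] z.1, f y = 0}
  have e : ∀ (z : Z) (p : (Fin ν → ℂ) → Prop), (∀ᶠ y : Z in 𝓝 z, p y.1) ↔ ∀ᶠ y in 𝓝[Z] z.1, p y :=
    fun z p => by rw [← map_nhds_subtype_val, eventually_map]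
  have h1 : IsOpen S := isOpen_iff_eventually.2 fun z hz =>
    (e z fun x => ∀ᶠ y in 𝓝[Z] x, f y = 0).2 (eventually_eventually_nhdsWithin.2 hz)
  have h2 : IsOpen Sᶜ := isOpen_iff_eventually.2 fun z hz => by
    refine (e z fun x => ¬ ∀ᶠ y in 𝓝[Z] x, f y = 0).2 ?_
    obtain ⟨ψ, p, p0⟩ := (hm z.1 z.2).prm
    have a0 : AnalyticAt ℂ (fun x => f (ψ x)) 0 := (p0 ▸ hf z.1 z.2).comp p.an
    obtain ⟨r, hr, hb⟩ := Metric.eventually_nhds_iff_ball.1
      (p.eventually.and a0.eventually_analyticAt)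
    rw [← p0, ← p.nh, eventually_map]
    filter_upwards [Metric.ball_mem_nhds 0 hr] with x hx h3
    rw [← (hb x hx).1.nh, eventually_map] at h3
    have h4 := AnalyticOnNhd.eqOn_zero_of_preconnected_of_eventuallyEq_zero
      (fun y hy => (hb y hy).2) (convex_ball _ r).isPreconnected hx h3
    refine hz ?_
    change ∀ᶠ y in 𝓝[Z] z.1, f y = 0
    rw [← p0, ← p.nh, eventually_map]
    filter_upwards [Metric.ball_mem_nhds 0 hr] with y hy using h4 hy
  have h3 : S = Set.univ := IsClopen.eq_univ ⟨isOpen_compl_iff.1 h2, h1⟩ ⟨⟨z₀, h₀⟩, h⟩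
  intro z hz
  have h4 : (⟨z, hz⟩ : Z) ∈ S := h3 ▸ Set.mem_univ _
  exact (show ∀ᶠ y in 𝓝[Z] z, f y = 0 from h4).self_of_nhdsWithin hz

theorem prime' {m : ℕ} (hm : ∀ z ∈ Z, MfdAt Z m z) (hc : IsConnected Z) :
    (vanishingIdeal ℂ Z).IsPrime := by
  obtain ⟨z, hz⟩ := hc.nonempty
  refine ⟨fun h => ?_, fun {f g} h => ?_⟩
  · have := mem_van.1 ((Ideal.eq_top_iff_one _).1 h) z hz
    simp at this
  · refine or_iff_not_imp_left.2 fun hf => mem_van.2 ?_
    rw [mem_van] at hf h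
    push Not at hf
    obtain ⟨y, hy, h1⟩ := hf
    refine ident hm hc.isPreconnected (fun x _ => analyticAt_eval g x) hy ?_
    filter_upwards [mem_nhdsWithin_of_mem_nhds
      ((analyticAt_eval f y).continuousAt.eventually_ne h1), self_mem_nhdsWithin] with x h2 h3
    have := h x h3
    rw [map_mul] at this
    exact (mul_eq_zero.1 this).resolve_left h2

/-- the gradient at a point -/
noncomputable def grd (v : Fin ν → ℂ) : MvPolynomial (Fin ν) ℂ →ₗ[ℂ] (Fin ν → ℂ) :=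
  LinearMap.pi fun j => (aeval v).toLinearMap ∘ₗ (pderiv j).toLinearMap

theorem grd_apply (v : Fin ν → ℂ) (f : MvPolynomial (Fin ν) ℂ) (j : Fin ν) :
    grd v f j = eval v (pderiv j f) := by
  simp [grd, aeval_eq_eval]

theorem fd_eval (v w : Fin ν → ℂ) (f : MvPolynomial (Fin ν) ℂ) :
    fderiv ℂ (fun x => eval x f) v w = ∑ j, grd v f j * w j := by
  rw [(hasFDerivAt_eval f v).fderiv, dP_apply]
  simp only [grd_apply]

theorem jac' (hZ : PV (π₀ (Fin ν)) Z n) {v : Fin ν → ℂ} (hv : v ∈ Z) :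
    ∃ (c : ℕ) (g : Fin c → MvPolynomial (Fin ν) ℂ) (h : MvPolynomial (Fin ν) ℂ),
      c + (n + 1) = ν ∧ (∀ k, g k ∈ vanishingIdeal ℂ Z) ∧
      LinearIndependent ℂ (fun k j => eval v (pderiv j (g k))) ∧ eval v h ≠ 0 ∧
      ∀ f ∈ vanishingIdeal ℂ Z, h * f ∈ Ideal.span (Set.range g) := by
  classical
  obtain ⟨D, hD⟩ : ∃ D : Submodule ℂ (Fin ν → ℂ),
      ∀ x, x ∈ D ↔ ∃ f ∈ vanishingIdeal ℂ Z, grd v f = x :=
    ⟨((vanishingIdeal ℂ Z).restrictScalars ℂ).map (grd v), fun _ => Submodule.mem_map⟩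
  have b := Module.finBasis ℂ D
  choose g hg1 hg2 using fun k => (hD _).1 (b k).2
  have hli : LinearIndependent ℂ (fun k j => eval v (pderiv j (g k))) := by
    have e : (fun k j => eval v (pderiv j (g k))) = D.subtype ∘ b := by
      funext k j
      rw [← grd_apply, hg2]
      rfl
    rw [e]
    exact b.linearIndependent.map' _ D.ker_subtype
  have h0 : ∀ z ∈ Z, ∀ k, eval z (g k) = 0 := fun z hz k => mem_van.1 (hg1 k) z hz
  have hs := surj_of_li g v hli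
  obtain ⟨d, T, ψ, hd, -, a1, a2, a3, a4, a5⟩ := exists_par g v (h0 v hv) hs
  let A : Set (Fin ν → ℂ) := {z | ∀ k, eval z (g k) = 0}
  have p : Prm A ψ 0 := Prm.of_inv a1 (w := fun z => T (z - v))
    (.of_an ((T.analyticAt _).comp (analyticAt_id.sub analyticAt_const))) (a3.and a4)
    (a2.symm ▸ a5)
  have mA : MfdAt A d v := a2 ▸ p.mfdAt (finrank_fin_fun ℂ)
  have mZ := hZ.mfd v hv
  have e1 : tn A v = tn Z v := by
    refine le_antisymm (fun w hw => Chow1.jac hZ hv fun P hP => ?_) (tn_mono h0)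
    have h1 : ∀ k, ∑ j, (b k).1 j * w j = 0 := fun k => by
      rw [← hg2, ← fd_eval]
      exact fderiv_eq_zero mA (analyticAt_eval (g k) v) (.of_forall fun s hs => hs k) hw
    have h2 := congrArg Subtype.val (b.sum_repr ⟨grd v P, (hD _).2 ⟨P, mem_van.2 hP, rfl⟩⟩)
    rw [fd_eval, ← show _ = grd v P from h2]
    simp only [Submodule.coe_sum, Submodule.coe_smul, Finset.sum_apply, Pi.smul_apply,
      smul_eq_mul, Finset.sum_mul, mul_assoc]
    rw [Finset.sum_comm]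
    simp only [← Finset.mul_sum, h1, mul_zero, Finset.sum_const_zero]
  have e2 : d = n + 1 := by
    rw [← finrank_tn mA, e1, finrank_tn mZ, Fintype.card_unit]
  obtain ⟨φ, q1, q2, q3⟩ := exists_adapted (c := 0) mA mZ h0 (by rw [e2, Fintype.card_unit])
  have h3 : ∀ᶠ s in 𝓝 v, s ∈ A → s ∈ Z :=
    q2 ▸ (q1.ev (p := fun s => s ∈ Z)).1 (q3.mono fun x hx => hx.2 (Subsingleton.elim _ _))
  obtain ⟨S, hS⟩ := IsNoetherian.noetherian (vanishingIdeal ℂ Z)
  have h4 : ∀ f : S, ∃ s, eval v s ≠ 0 ∧ s * f.1 ∈ Ideal.span (Set.range g) := fun f =>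
    L0 g v (h0 v hv) hs (h3.mono fun s h5 h6 =>
      mem_van.1 (hS ▸ Submodule.subset_span f.2) s (h5 h6))
  choose s s1 s2 using h4
  refine ⟨_, g, ∏ f, s f, ?_, hg1, hli, ?_, fun f hf => ?_⟩
  · simp only [Fintype.card_fin] at hd
    omega
  · rw [map_prod]
    exact Finset.prod_ne_zero_iff.2 fun f _ => s1 f
  · rw [← hS] at hf
    induction hf using Submodule.span_induction with
    | mem f hf =>
      obtain ⟨t, ht⟩ := Finset.dvd_prod_of_mem s (Finset.mem_univ (⟨f, hf⟩ : S))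
      rw [ht, mul_right_comm]
      exact Ideal.mul_mem_right _ _ (s2 ⟨f, hf⟩)
    | zero => rw [mul_zero]; exact zero_mem _
    | add f f' _ _ a b => rw [mul_add]; exact add_mem a b
    | smul c f _ a => rw [smul_eq_mul, mul_left_comm]; exact Ideal.mul_mem_left _ _ a

variable {W : Cy.S6}

theorem pt_iff (C : Au.Cf W) (v : Fin C.ν → ℂ) : Fm.Pt C.I v ↔ v ∈ C.Z := pt_iff' C.pv v

theorem surf (C : Au.Cf W) : Fm.Surf C.I where
  prime := prime' C.pv.mfd C.cn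
  ne := C.cn.nonempty.imp fun v hv => (pt_iff C v).2 hv
  jac v hv := jac' C.pv ((pt_iff C v).1 hv)

end Vale.Agent.P287T.Kr
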