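import Vale.Agent.P287T.Kr.Out
import Vale.Agent.P287T.Kr.Lf
import Vale.Agent.P287T.Kr.Jet
import Vale.Agent.P287T.Kr.Lift
import Vale.Agent.P287T.Kr.Surf
import Vale.Agent.P287T.Au.Alg
import Vale.Agent.P287T.Au.Ks
import Vale.Agent.P287T.Cy.Main

/-!
# Block KER: the kernel of a strict family
-/

set_option backward.isDefEq.respectTransparency false

open CategoryTheory MvPolynomial Matrix Module

noncomputable section

namespace Vale.Agent.P287T.Kr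

open Vale.Agent.P287T.Sx Vale.Agent.P287T.Cy Vale.Agent.P287T.Fm Vale.Agent.P287T.Au
  Vale.Agent.P287Z Vale.Agent.P287Z.O.V

variable {W : S6} {C : Cf W} {T : Cht C}

theorem ev_mk (φ : T.D →ₐ[ℂ] ℂ) (g : Gr.Sn C.ν) :
    φ (algebraMap C.B T.D (Ideal.Quotient.mk C.I g)) = eval (T.π φ) g := by
  have e : φ.comp ((IsScalarTower.toAlgHom ℂ C.B T.D).comp (Ideal.Quotient.mkₐ ℂ C.I)) =
      aeval (T.π φ) := algHom_ext fun i => (aeval_X (T.π φ) i).symm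
  exact (DFunLike.congr_fun e g).trans (by rw [aeval_eq_eval])

theorem jet_surj {ν : ℕ} {v t : Fin ν → ℂ} (h : t ≠ 0) (a b : ℂ) :
    ∃ g : Gr.Sn ν, eval v g = a ∧ dv v t g = b := by
  obtain ⟨i, hi⟩ := Function.ne_iff.1 h
  have hi' : t i ≠ 0 := hi
  refine ⟨MvPolynomial.C a + MvPolynomial.C (b / t i) * (X i + MvPolynomial.C (-v i)), by simp, ?_⟩
  rw [dv_add, dv_mul, dv_add, dv_C, dv_C, dv_C, dv_X, eval_C, mul_zero, add_zero, add_zero,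
    zero_add, div_mul_cancel₀ _ hi']

theorem jet_blk {D ι : Type} [CommRing D] [Algebra ℂ D] [Fintype ι] [DecidableEq ι]
    (φ : D →ₐ[ℂ] ℂ) (δ : D →ₗ[ℂ] ℂ) (h1 : ∀ a b, δ (a * b) = φ a * δ b + φ b * δ a) {p : ι → ℤ}
    {d : Matrix ι ι (Px D)} (hd : ∀ i l, Ch (3 + p l - p i) (d i l)) (hv : IsMF W p (val φ d))
    (h : IsMF W (fun x : ι × Fin 2 => p x.1) (blk (jt φ δ h1) d))
    (h0 : finrank ℂ (HH p (val φ d) p (val φ d) 0) = 1)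
    (hn : ¬ Trv p (val φ d) (Matrix.of fun i l => cf δ (d i l))) :
    finrank ℂ (HH (fun x : ι × Fin 2 => p x.1) (blk (jt φ δ h1) d) p (val φ d) 0) ≤ 1 := by
  refine jet_le hv (fun i l => (hd i l).cf δ) (fun i l => ?_) (fun i l => ?_) (fun i l => ?_)
    (fun i l => ?_) h h0 hn
  · exact rM_pt (jt φ δ h1) φ (s := 0) (t := 0) (fun _ => rfl) (d i l)
  · exact rM_pt (jt φ δ h1) φ (s := 1) (t := 1) (fun _ => rfl) (d i l)
  · ext μ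
    rw [blk_apply, coeff_rM, coeff_zero]
    rfl
  · ext μ
    rw [blk_apply, coeff_rM, coeff_cf]
    rfl

variable [hW : Fact (W.IsHomogeneous 3)] {Γ : Gr C.B T.D} (hΓ : IsGr T Γ) (O : Out Γ W C.p T.d)

/-- the matrix -/
def bgC : Bg W C.I C.B (Fin (O.r 1)) (Fin (O.r 2)) :=
  bg (hΓ.fm hW.out) O (Ideal.Quotient.mkₐ ℂ C.I) Ideal.Quotient.mk_surjective
    (fun _ h => Ideal.Quotient.eq_zero_iff_mem.2 h) hΓ.y_mem

/-- the kernel -/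
def kerC : Ker W C.I := (bgC hΓ O).ker (stMem C.I W _ (bgC hΓ O).NY_mem)

theorem quo_pt (φ : T.D →ₐ[ℂ] ℂ) :
    (kerC hΓ O).Quo (mv (T.π φ)) (raw (hΓ.fm hW.out) O (sc φ)).Q :=
  (bgC hΓ O).quo (rB C.B (sc φ)) 0 (raw (hΓ.fm hW.out) O (sc φ)) rfl rfl
    (fun w => ⟨Ideal.Quotient.mk C.I (MvPolynomial.C (w 0)), funext fun s => by
      obtain rfl := Subsingleton.elim s 0
      exact (sc_apply φ _ _ _).trans ((ev_mk φ _).trans (eval_C _))⟩)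
    (fun g => by
      have e : ∀ s, rB C.B (sc φ) ((bgC hΓ O).q g) s 0 = eval (T.π φ) g := fun s =>
        (sc_apply φ _ _ _).trans (ev_mk φ g)
      exact ⟨fun h => (e 0).symm.trans (h 0), fun h s => (e s).trans h⟩) _

theorem fib_pt (φ : T.D →ₐ[ℂ] ℂ) :
    (kerC hΓ O).Fib (mv (T.π φ)) (dual (gm (Gv.val_mf T φ))) := by
  refine ⟨_, quo_pt hΓ O φ, ?_⟩
  rw [dual_dual]
  refine ste _ ((Fintype.equivFin C.ι).symm.trans (Equiv.prodUnique C.ι (Fin 1)).symm) _ rfl ?_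
  funext i l
  exact (rM_pt (sc φ) φ (fun b => sc_apply φ b _ _) _).symm

theorem quo_jet (φ : T.D →ₐ[ℂ] ℂ) {t : Fin C.ν → ℂ} (ht : t ≠ 0) {δ : T.D →ₗ[ℂ] ℂ}
    (h1 : ∀ a b, δ (a * b) = φ a * δ b + φ b * δ a)
    (h2 : ∀ g, δ (algebraMap C.B T.D (Ideal.Quotient.mk C.I g)) = dv (T.π φ) t g) :
    (kerC hΓ O).Quo (mj (T.π φ) t) (raw (hΓ.fm hW.out) O (jt φ δ h1)).Q := by
  have e0 : ∀ g, rB C.B (jt φ δ h1) ((bgC hΓ O).q g) 0 0 = eval (T.π φ) g := ev_mk φ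
  have e1 : ∀ g, rB C.B (jt φ δ h1) ((bgC hΓ O).q g) 1 0 = dv (T.π φ) t g := h2
  refine (bgC hΓ O).quo (rB C.B (jt φ δ h1)) 0 (raw (hΓ.fm hW.out) O (jt φ δ h1)) rfl rfl
    (fun w => ?_) (fun g => ?_) _
  · obtain ⟨g, g0, g1⟩ := jet_surj (v := T.π φ) ht (w 0) (w 1)
    exact ⟨(bgC hΓ O).q g, funext (Fin.forall_fin_two.2 ⟨(e0 g).trans g0, (e1 g).trans g1⟩)⟩
  · rw [Fin.forall_fin_two, e0, e1]
    rfl

omit hW in
theorem jet_one (φ : T.D →ₐ[ℂ] ℂ) {t : Fin C.ν → ℂ} (ht : ∀ c : ℂ, t ≠ c • T.π φ)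
    {δ : T.D →ₗ[ℂ] ℂ} (h1 : ∀ a b, δ (a * b) = φ a * δ b + φ b * δ a)
    (h2 : ∀ g, δ (algebraMap C.B T.D (Ideal.Quotient.mk C.I g)) = dv (T.π φ) t g)
    (h : IsMF W (fun x : C.ι × Fin 2 => C.p x.1) (blk (jt φ δ h1) T.d)) :
    finrank ℂ (Hm (dual (gm (Gv.val_mf T φ))) (dual (gm h)) 0) ≤ 1 := by
  obtain ⟨a⟩ := hm_dual h (Gv.val_mf T φ) 0
  have h0 := (C.orb _ (T.pt φ)).dim _ (T.fib φ) 0
  rw [mul_zero, if_pos (Or.inl rfl)] at h0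
  rw [a.finrank_eq, mul_zero]
  refine jet_blk φ δ h1 (fun i l μ => (T.dg i l μ).2) (Gv.val_mf T φ) h h0 fun h => ?_
  obtain ⟨c, hc⟩ := stKs W C T φ δ h1 _ (fun i l m => coeff_cf δ _ m) h
  refine ht c (funext fun i => ?_)
  rw [Pi.smul_apply, smul_eq_mul, ← hc i, Cf.y, h2, dv_X]

theorem fib_jet (φ : T.D →ₐ[ℂ] ℂ) {t : Fin C.ν → ℂ} (ht : Tg C.I (T.π φ) t) :
    ∃ (s : ℕ) (U₂ : GMF W s), (kerC hΓ O).Fib (mj (T.π φ) t) U₂ ∧
      finrank ℂ (Hm (dual (gm (Gv.val_mf T φ))) U₂ 0) ≤ 1 := by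
  have := T.sm
  obtain ⟨δ, h1, h2⟩ := lift_der C.I T.D φ (T.π φ) t (fun _ => rfl) ht.1
  have h := (raw (hΓ.fm hW.out) O (jt φ δ h1)).mf
  refine ⟨_, dual (gm h), ⟨_, quo_jet hΓ O φ (fun h => ht.2 0 (h.trans (zero_smul ℂ _).symm))
    h1 h2, ?_⟩, jet_one φ ht.2 h1 h2 h⟩
  rw [dual_dual]
  exact ste _ (Fintype.equivFin _).symm _ rfl rfl

/-- **KER** -/
theorem stKer : StKer := by
  rintro W hW h0 C ⟨T, Γ, hT, hΓ, ⟨O⟩⟩
  obtain ⟨z₀, hz₀⟩ := C.cn.nonempty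
  have h : ∀ v, ∃ φ : T.D →ₐ[ℂ] ℂ, Pt C.I v → T.π φ = v := fun v => by
    by_cases hv : v ∈ C.Z
    · exact (hT v hv).imp fun _ e _ => e
    · exact (hT z₀ hz₀).imp fun _ _ e => absurd ((pt_iff C v).1 e) hv
  choose φ hφ using h
  have hO : ∀ v, Pt C.I v → val (φ v) T.d ∈ C.O v := fun v hv => by
    have : val (φ v) T.d ∈ C.O (T.π (φ v)) := T.fib (φ v)
    rwa [hφ v hv] at this
  have hd : ∀ v k, finrank ℂ (Hm (dual (gm (Gv.val_mf T (φ v)))) (dual (gm (Gv.val_mf T (φ v)))) k)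
      = if k = 0 ∨ k = 2 then 1 else if k = 1 then 2 else 0 := fun v k => by
    obtain ⟨a⟩ := hm_dual (Gv.val_mf T (φ v)) (Gv.val_mf T (φ v)) k
    exact a.finrank_eq.trans ((C.orb _ (T.pt _)).dim _ (T.fib _) k)
  refine ⟨kerC hΓ O, fun v => dual (gm (Gv.val_mf T (φ v))), ⟨fun e => ?_, fun v hv => ?_,
    fun v v' hv hv' hc k => ?_, fun v _ k hk => ?_, fun v _ => hd v 0, fun v t hv ht => ?_,
    ∑ i, |C.p i|, fun v _ i => ?_⟩, fun v hv => ⟨_, hO v ((pt_iff C v).2 hv), _, rfl⟩⟩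
  · refine lf_of (surf C).prime h0 _ (bgC hΓ O).hq (fun v => rB C.B (sc (φ v)))
      (fun v hv g => ?_) (O.δ 0) (O.δ 1) _ _ (fun v => raw (hΓ.fm hW.out) O (sc (φ v)))
      (fun _ => rfl) (fun _ => rfl) (fun _ => rfl) (fun _ => rfl) (fun v hv => ?_) e
    · exact (sc_apply (φ v) _ _ _).trans ((ev_mk (φ v) g).trans (by rw [hφ v hv]))
    · have := quo_pt hΓ O (φ v)
      rwa [hφ v hv] at this
  · have := fib_pt hΓ O (φ v)
    rwa [hφ v hv] at this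
  · obtain ⟨a⟩ := hm_dual (Gv.val_mf T (φ v)) (Gv.val_mf T (φ v')) k
    have := C.ort v ((pt_iff C v).1 hv) v' ((pt_iff C v').1 hv') hc _ (hO v hv) _ (hO v' hv') k
    refine a.toEquiv.subsingleton_congr.2 (Submodule.Quotient.subsingleton_iff.2 ?_)
    exact eq_top_iff.2 fun x _ => this x.2
  · have := finite_HH (dual (gm (Gv.val_mf T (φ v)))).p (dual (gm (Gv.val_mf T (φ v)))).d
      (dual (gm (Gv.val_mf T (φ v)))).p (dual (gm (Gv.val_mf T (φ v)))).d (3 * k)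
    refine Module.finrank_zero_iff.1 ((hd v k).trans ?_)
    rw [if_neg (by omega), if_neg (by omega)]
  · have := fib_jet hΓ O (φ v) (t := t) (by rwa [hφ v hv])
    rwa [hφ v hv] at this
  · exact (abs_neg _).trans_le (Finset.single_le_sum (f := fun i => |C.p i|)
      (fun _ _ => abs_nonneg _) (Finset.mem_univ _))

end Vale.Agent.P287T.Kr
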