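import Vale.Agent.P287T.Kr.Ste

/-!
# The bigraded module of a matrix over `B[x]`
-/

set_option backward.isDefEq.respectTransparency false
set_option linter.unusedSectionVars false

open CategoryTheory Limits MvPolynomial Matrix

noncomputable section

namespace Vale.Agent.P287T.Kr

open Vale.Agent.P287T.Sx Vale.Agent.P287T.Cy Vale.Agent.P287T.Fm Vale.Agent.P287Z
  Vale.Agent.P287Z.O.V

section Gen

variable {n : ℕ} {R M : Type} [CommRing R] [Algebra ℂ R] [AddCommGroup M] [Module ℂ M] [Module R M]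
  [IsScalarTower ℂ R M]

/-- multiplication by a homogeneous element -/
def rs {U V : Submodule ℂ M} (r : R) (h : ∀ v ∈ U, r • v ∈ V) : U →ₗ[ℂ] V where
  toFun v := ⟨r • v.1, h _ v.2⟩
  map_add' _ _ := Subtype.ext (smul_add _ _ _)
  map_smul' c v := Subtype.ext (smul_comm r c v.1)

theorem act_val {P : Gr.GrS n} {e : Eu M} {z : Gr.Sn n →ₐ[ℂ] R} {γ : ℤ → ℤ × ℤ}
    {j : ∀ a : ℤ, P.obj ⟨a⟩ →ₗ[ℂ] M} (hγ : Function.Injective γ)
    (mem : ∀ a x, j a x ∈ e.H (γ a))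
    (map : ∀ a b μ (h : a + (μ.degree : ℤ) = b) x,
      j b (P.map (⟨μ, h⟩ : (⟨a⟩ : Gr.Dg n) ⟶ ⟨b⟩) x) = z (monomial μ 1) • j a x)
    (f : Gr.Sn n) (a b : ℤ) (x : P.obj ⟨a⟩) :
    j b (Gr.act P f a b x) = e.pr (γ b) (z f • j a x) := by
  conv_rhs => rw [← support_sum_monomial_coeff f, map_sum, Finset.sum_smul, map_sum]
  rw [Gr.act]
  change j b ((ModuleCat.Hom.hom _) x) = _
  rw [ModuleCat.hom_sum, LinearMap.sum_apply, map_sum]
  refine Finset.sum_congr rfl fun μ _ => ?_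
  have e1 : z (monomial μ (coeff μ f)) • j a x = coeff μ f • z (monomial μ 1) • j a x := by
    rw [← smul_assoc, ← map_smul z, smul_monomial, smul_eq_mul, mul_one]
  rw [e1, map_smul]
  split_ifs with h
  · rw [← map a b μ h, e.pr_self (mem _ _), ← map_smul]
    rfl
  · rw [← map a _ μ rfl, e.pr_ne (mem _ _) fun h' => h (hγ h').symm, smul_zero]
    exact map_zero _

theorem fg_of {P : Gr.GrS n} {τ : Type} [Finite τ] (a : τ → ℤ) (g : ∀ t, P.obj ⟨a t⟩)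
    (h : ∀ (b : ℤ) (S : Submodule ℂ (P.obj ⟨b⟩)),
      (∀ (t : τ) (m : (⟨a t⟩ : Gr.Dg n) ⟶ ⟨b⟩), P.map m (g t) ∈ S) → ∀ v, v ∈ S) : Gr.fg P := by
  obtain ⟨k, ⟨e⟩⟩ := Finite.exists_equiv_fin τ
  refine ⟨k, fun i => a (e.symm i), fun i => g (e.symm i), fun b v => h b _ (fun t m => ?_) v⟩
  obtain ⟨i, rfl⟩ := e.symm.surjective t
  exact Submodule.subset_span ⟨i, m, rfl⟩

theorem fin_deg {σ a : Type} [Finite σ] [Finite a] (p : a × (σ →₀ ℕ) → Prop) (c : a → ℤ)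
    (h : ∀ x, p x → (x.2.degree : ℤ) ≤ c x.1) : Finite {x // p x} := by
  have : {x | p x}.Finite := by
    refine (Set.finite_iUnion fun i : a => (Set.finite_singleton i).prod
      (Finsupp.finite_of_degree_le (σ := σ) (c i).toNat)).subset fun x hx => ?_
    refine Set.mem_iUnion.2 ⟨x.1, rfl, ?_⟩
    have := h x hx
    show x.2.degree ≤ (c x.1).toNat
    omega
  exact this

end Gen

variable {ν : ℕ}

/-- a bihomogeneous matrix over `B[x]`, `B = ℂ[y] / I` -/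
structure Bg (W : S6) (I : Ideal (Gr.Sn ν)) (B : Type) [CommRing B] [Algebra ℂ B]
    (a1 a2 : Type) where
  q : Gr.Sn ν →ₐ[ℂ] B
  hq : Function.Surjective q
  hI : ∀ f ∈ I, q f = 0
  e : Eu B
  lb : Lb e e
  ch : ∀ γ : ℤ × ℤ, γ.1 ≠ 0 → e.H γ ≤ ⊥
  hy : ∀ i, q (X i) ∈ e.H (0, 1)
  hW : Hg 6 W
  g1 : a1 → ℤ × ℤ
  g2 : a2 → ℤ × ℤ
  δ : Matrix a1 a2 (Px B)
  hδ : ∀ i j, δ i j ∈ (e.mv wx).H (g2 j + (3, 0) - g1 i)

variable (B : Type) [CommRing B] [Algebra ℂ B]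

/-- polynomials in `x` -/
def zx : S6 →ₐ[ℂ] Px B := mapAlgHom (Algebra.ofId ℂ _)

theorem zx_apply (f : S6) : zx B f = MvPolynomial.map (algebraMap ℂ _) f := rfl

theorem zx_monomial (μ : Fin 6 →₀ ℕ) : zx B (monomial μ 1) = monomial μ 1 := by
  rw [zx_apply, map_monomial, map_one]

variable {B}

/-- polynomials in `y` -/
def zy (q : Gr.Sn ν →ₐ[ℂ] B) : Gr.Sn ν →ₐ[ℂ] Px B := (IsScalarTower.toAlgHom ℂ B (Px B)).comp q

theorem zy_apply (q : Gr.Sn ν →ₐ[ℂ] B) (g : Gr.Sn ν) : zy q g = C (q g) := rfl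

variable {I : Ideal (Gr.Sn ν)} {W : S6} {a1 a2 : Type} [Fintype a1] [DecidableEq a1] [Fintype a2]

namespace Bg

variable (Γ : Bg W I B a1 a2)

/-- the grading of `B[x]` -/
abbrev eL : Eu (Px B) := Γ.e.mv wx

theorem lbL : Lb Γ.eL Γ.eL := Γ.lb.mv wx

theorem q_mem (μ : Fin ν →₀ ℕ) :
    Γ.q (monomial μ 1) ∈ Γ.e.H (0, (μ.degree : ℤ)) := by
  induction μ using Finsupp.induction_linear with
  | zero => exact (map_one Γ.q).symm ▸ Γ.lb.one
  | add μ μ' h h' =>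
    have := Γ.lb.mul h h'
    rw [← map_mul, monomial_mul, one_mul, Prod.mk_add_mk, add_zero] at this
    rwa [map_add, Nat.cast_add]
  | single i k =>
    rw [← X_pow_eq_monomial, map_pow, Finsupp.degree_single]
    induction k with
    | zero => rw [pow_zero]; exact Γ.lb.one
    | succ k ih =>
      have := Γ.lb.mul ih (Γ.hy i)
      rw [Prod.mk_add_mk, add_zero] at this
      rwa [pow_succ, Nat.cast_succ]

theorem zy_mem (μ : Fin ν →₀ ℕ) : zy Γ.q (monomial μ 1) ∈ Γ.eL.H (0, (μ.degree : ℤ)) := by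
  have := Eu.monomial_mem (w := wx) (Γ.q_mem μ) 0
  rwa [map_zero, add_zero] at this

theorem zx_mem (μ : Fin 6 →₀ ℕ) : zx B (monomial μ 1) ∈ Γ.eL.H (2 * (μ.degree : ℤ), 0) := by
  have := Eu.monomial_mem (w := wx) Γ.lb.one μ
  rwa [zero_add, weight_wx, ← zx_monomial] at this

theorem zx_hg {k : ℤ} {f : S6} (h : Hg k f) : zx B f ∈ Γ.eL.H (k, 0) := by
  rw [← support_sum_monomial_coeff f, map_sum]
  refine Submodule.sum_mem _ fun μ hμ => ?_
  have := (Γ.eL.H _).smul_mem (coeff μ f) (Γ.zx_mem μ)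
  rwa [← map_smul, smul_monomial, smul_eq_mul, mul_one, O.L.hg_iff.1 h μ hμ] at this

/-- the grading of the free module -/
abbrev eF : Eu (a1 → Px B) := Γ.eL.pi Γ.g1

theorem lbF : Lb Γ.eL Γ.eF := Γ.lbL.pi _

/-- the relations -/
def P : Submodule (Px B) (a1 → Px B) where
  carrier := {v | ∃ u w, v = Γ.δ *ᵥ u + zx B W • w}
  zero_mem' := ⟨0, 0, by simp⟩
  add_mem' := by
    rintro _ _ ⟨u, w, rfl⟩ ⟨u', w', rfl⟩
    exact ⟨u + u', w + w', by rw [mulVec_add, smul_add]; abel⟩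
  smul_mem' := by
    rintro c _ ⟨u, w, rfl⟩
    exact ⟨c • u, c • w, by rw [mulVec_smul, smul_add, smul_comm c (zx B W)]⟩

theorem P_st : ∀ v ∈ Γ.P, Γ.eF.ε v ∈ Γ.P := by
  rintro _ ⟨u, w, rfl⟩
  rw [map_add]
  refine add_mem ?_ ?_
  · induction u using (Γ.eL.pi fun j => Γ.g2 j + (3, 0)).ind with
    | h0 => rw [mulVec_zero, map_zero]; exact zero_mem _
    | hh γ u hu =>
      have : Γ.δ *ᵥ u ∈ Γ.eF.H γ := Eu.mem_pi.2 fun i => Submodule.sum_mem _ fun j _ => by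
        have := Γ.lbL.mul (Γ.hδ i j) (Eu.mem_pi.1 hu j)
        rwa [show Γ.g2 j + (3, 0) - Γ.g1 i + (γ - (Γ.g2 j + (3, 0))) = γ - Γ.g1 i by abel] at this
      rw [this]
      exact Γ.P.smul_of_tower_mem _ ⟨u, 0, by simp⟩
    | ha u u' h h' => rw [mulVec_add, map_add]; exact add_mem h h'
  · rw [Γ.lbF, Γ.zx_hg Γ.hW, smul_assoc]
    exact add_mem (Γ.P.smul_of_tower_mem _ ⟨0, w, by simp⟩) ⟨0, Γ.eF.ε w, by simp⟩

/-- the module -/
abbrev M : Type := (a1 → Px B) ⧸ Γ.P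

/-- its grading -/
def eM : Eu Γ.M := Γ.eF.quot Γ.P Γ.P_st

theorem lbM : Lb Γ.eL Γ.eM := Γ.lbF.quot _ _

/-- the projection -/
def pj : (a1 → Px B) →ₗ[ℂ] Γ.M := Γ.P.mkQ.restrictScalars ℂ

theorem pj_smul (r : Px B) (v) : Γ.pj (r • v) = r • Γ.pj v := rfl

theorem pj_surj : Function.Surjective Γ.pj := Γ.P.mkQ_surjective

theorem pj_zero {v} : Γ.pj v = 0 ↔ v ∈ Γ.P := Submodule.Quotient.mk_eq_zero _

theorem pj_deg : Deg Γ.eF Γ.eM 0 Γ.pj := fun δ v hv => by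
  rw [zero_add, Eu.mem_H, ← map_smul, ← hv]
  rfl

theorem lift {γ : ℤ × ℤ} {v : Γ.M} (hv : v ∈ Γ.eM.H γ) : ∃ u ∈ Γ.eF.H γ, Γ.pj u = v := by
  obtain ⟨u, rfl⟩ := Γ.pj_surj v
  refine ⟨_, Γ.eF.pr_mem γ u, ?_⟩
  rw [← Γ.pj_deg.pr γ u, zero_add, Γ.eM.pr_self hv]

theorem W_smul (v : Γ.M) : zx B W • v = 0 := by
  obtain ⟨u, rfl⟩ := Γ.pj_surj v
  rw [← pj_smul, pj_zero]
  exact ⟨0, u, by simp⟩

theorem x_mem (μ : Fin 6 →₀ ℕ) {a b m : ℤ} (h : a + (μ.degree : ℤ) = b) :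
    ∀ v ∈ Γ.eM.H (2 * a, m), zx B (monomial μ 1) • v ∈ Γ.eM.H (2 * b, m) := fun v hv => by
  have := Γ.lbM.smul (Γ.zx_mem μ) hv
  rwa [Prod.mk_add_mk, zero_add, show 2 * (μ.degree : ℤ) + 2 * a = 2 * b by omega] at this

theorem y_mem (μ : Fin ν →₀ ℕ) {a b c : ℤ} (h : a + (μ.degree : ℤ) = b) :
    ∀ v ∈ Γ.eM.H (c, a), zy Γ.q (monomial μ 1) • v ∈ Γ.eM.H (c, b) := fun v hv => by
  have := Γ.lbM.smul (Γ.zy_mem μ) hv
  rwa [Prod.mk_add_mk, zero_add, show (μ.degree : ℤ) + a = b by omega] at this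

/-- the generators -/
def gen (j : a1) : Γ.M := Γ.pj (Pi.single j 1)

theorem gen_mem (j : a1) : Γ.gen j ∈ Γ.eM.H (Γ.g1 j) := by
  have := Γ.pj_deg (Γ.g1 j) (Pi.single j 1) (Eu.mem_pi.2 fun i => by
    by_cases h : i = j
    · subst h
      rw [Pi.single_eq_same, sub_self]
      exact Γ.lbL.one
    · rw [Pi.single_eq_of_ne h]
      exact zero_mem _)
  rwa [zero_add] at this

theorem H_le {γ : ℤ × ℤ} (S : Submodule ℂ Γ.M)
    (h : ∀ j (μ : Fin 6 →₀ ℕ) (τ : Fin ν →₀ ℕ), 2 * (μ.degree : ℤ) + (Γ.g1 j).1 = γ.1 →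
      (τ.degree : ℤ) + (Γ.g1 j).2 = γ.2 →
      zx B (monomial μ 1) • zy Γ.q (monomial τ 1) • Γ.gen j ∈ S) : Γ.eM.H γ ≤ S := by
  have k1 : ∀ j (μ : Fin 6 →₀ ℕ) (g : Gr.Sn ν),
      Γ.eM.pr γ (zx B (monomial μ 1) • zy Γ.q g • Γ.gen j) ∈ S := by
    intro j μ g
    induction g using MvPolynomial.induction_on' with
    | monomial τ c =>
      have hm := Γ.lbM.smul (Γ.zx_mem μ) (Γ.lbM.smul (Γ.zy_mem τ) (Γ.gen_mem j))
      have e : zx B (monomial μ 1) • zy Γ.q (monomial τ c) • Γ.gen j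
          = c • zx B (monomial μ 1) • zy Γ.q (monomial τ 1) • Γ.gen j := by
        rw [smul_comm c, ← smul_assoc c, ← map_smul, smul_monomial, smul_eq_mul, mul_one]
      rw [e, map_smul]
      refine S.smul_mem _ ?_
      by_cases hc : γ = (2 * (μ.degree : ℤ), 0) + ((0, (τ.degree : ℤ)) + Γ.g1 j)
      · rw [hc, Γ.eM.pr_self hm]
        exact h j μ τ (by rw [hc]; simp) (by rw [hc]; simp)
      · rw [Γ.eM.pr_ne hm hc]
        exact zero_mem _
    | add f g hf hg => rw [map_add, add_smul, smul_add, map_add]; exact add_mem hf hg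
  have k2 : ∀ j (r : Px B), Γ.eM.pr γ (r • Γ.gen j) ∈ S := by
    intro j r
    induction r using MvPolynomial.induction_on' with
    | monomial μ b =>
      obtain ⟨g, rfl⟩ := Γ.hq b
      have := k1 j μ g
      rwa [smul_smul, zx_monomial, zy_apply, mul_comm, C_mul_monomial, mul_one] at this
    | add f g hf hg => rw [add_smul, map_add]; exact add_mem hf hg
  intro v hv
  rw [← Γ.eM.pr_self hv]
  obtain ⟨u, rfl⟩ := Γ.pj_surj v
  rw [← Finset.univ_sum_single u, map_sum, map_sum]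
  refine S.sum_mem fun j _ => ?_
  have := k2 j (u j)
  rwa [gen, ← pj_smul, ← Pi.single_smul, smul_eq_mul, mul_one] at this

/-- the part of degree `m` in `y` -/
def NX (m : ℤ) : O.L.GrS where
  obj a := ModuleCat.of ℂ (Γ.eM.H (2 * a.deg, m))
  map μ := ModuleCat.ofHom (rs (zx B (monomial μ.1 1)) (Γ.x_mem μ.1 μ.2))
  map_id a := by
    refine ModuleCat.hom_ext (LinearMap.ext fun v => Subtype.ext ?_)
    change zx B 1 • v.1 = v.1
    rw [map_one, one_smul]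
  map_comp μ μ' := by
    refine ModuleCat.hom_ext (LinearMap.ext fun v => Subtype.ext ?_)
    change zx B (monomial (μ.1 + μ'.1) 1) • v.1
      = zx B (monomial μ'.1 1) • zx B (monomial μ.1 1) • v.1
    rw [smul_smul, ← map_mul, monomial_mul, one_mul, add_comm]

theorem NX_act (m : ℤ) (f : S6) (a b : ℤ) (x : (Γ.NX m).obj ⟨a⟩) :
    (O.L.act (Γ.NX m) f a b x).1 = Γ.eM.pr (2 * b, m) (zx B f • x.1) :=
  act_val (P := Γ.NX m) (e := Γ.eM) (z := zx B) (γ := fun a => (2 * a, m))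
    (j := fun a => (Γ.eM.H (2 * a, m)).subtype)
    (fun a b h => by have := congrArg Prod.fst h; simp only at this; omega) (fun _ x => x.2)
    (fun _ _ _ _ _ => rfl) f a b x

theorem NX_mem (m : ℤ) : O.L.grA W (Γ.NX m) := by
  refine ⟨fun a b => ModuleCat.hom_ext (LinearMap.ext fun x => Subtype.ext ?_), ?_⟩
  · refine (Γ.NX_act m W a b x).trans ?_
    rw [W_smul, map_zero]
    rfl
  · have := fin_deg (fun x : a1 × (Fin ν →₀ ℕ) => (Γ.g1 x.1).2 + (x.2.degree : ℤ) = m ∧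
      2 * ((Γ.g1 x.1).1 / 2) = (Γ.g1 x.1).1) (fun j => m - (Γ.g1 j).2) fun x h => by omega
    refine fg_of (P := Γ.NX m) (τ := {x : a1 × (Fin ν →₀ ℕ) //
      (Γ.g1 x.1).2 + (x.2.degree : ℤ) = m ∧ 2 * ((Γ.g1 x.1).1 / 2) = (Γ.g1 x.1).1})
      (fun t => (Γ.g1 t.1.1).1 / 2) (fun t => ⟨zy Γ.q (monomial t.1.2 1) • Γ.gen t.1.1,
        Γ.y_mem _ t.2.1 _ (by rw [t.2.2]; exact Γ.gen_mem _)⟩) fun b S hS v => ?_
    obtain ⟨w, hw, e⟩ := Γ.H_le (γ := (2 * b, m)) (Submodule.map (Γ.eM.H (2 * b, m)).subtype S)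
      (fun j μ τ h1 h2 => ⟨_, hS ⟨(j, τ), by simp only at h1 h2 ⊢; omega⟩
        ⟨μ, by simp only at h1 h2 ⊢; omega⟩, rfl⟩) v.2
    exact (Subtype.ext e : w = v) ▸ hw

/-- the kernel as a functor -/
def N : Gr.Dg ν ⥤ O.L.GA W where
  obj m := ⟨Γ.NX m.deg, Γ.NX_mem _⟩
  map μ := ObjectProperty.homMk
    { app := fun a => ModuleCat.ofHom (rs (zy Γ.q (monomial μ.1 1)) (Γ.y_mem μ.1 μ.2))
      naturality := fun a b τ => ModuleCat.hom_ext (LinearMap.ext fun v => Subtype.ext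
        (smul_comm (zy Γ.q (monomial μ.1 1)) (zx B (monomial τ.1 1)) v.1)) }
  map_id m := by
    refine ObjectProperty.hom_ext _ (NatTrans.ext (funext fun a => ?_))
    refine ModuleCat.hom_ext (LinearMap.ext fun v => Subtype.ext ?_)
    change zy Γ.q 1 • v.1 = v.1
    rw [map_one, one_smul]
  map_comp μ μ' := by
    refine ObjectProperty.hom_ext _ (NatTrans.ext (funext fun a => ?_))
    refine ModuleCat.hom_ext (LinearMap.ext fun v => Subtype.ext ?_)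
    change zy Γ.q (monomial (μ.1 + μ'.1) 1) • v.1
      = zy Γ.q (monomial μ'.1 1) • zy Γ.q (monomial μ.1 1) • v.1
    rw [smul_smul, ← map_mul, monomial_mul, one_mul, add_comm]

theorem NY_mem (c : ℤ) : Gr.grA I (NY Γ.N c) := by
  refine ⟨fun f hf a b => ModuleCat.hom_ext (LinearMap.ext fun x => Subtype.ext ?_), ?_⟩
  · refine (act_val (P := NY Γ.N c) (e := Γ.eM) (z := zy Γ.q) (γ := fun a => (2 * c, a))
      (j := fun a => (Γ.eM.H (2 * c, a)).subtype) (fun a b h => congrArg Prod.snd h)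
      (fun _ x => x.2) (fun _ _ _ _ _ => rfl) f a b x).trans ?_
    rw [zy_apply, Γ.hI f hf, map_zero, zero_smul, map_zero]
    rfl
  · have := fin_deg (fun x : a1 × (Fin 6 →₀ ℕ) => (Γ.g1 x.1).1 / 2 + (x.2.degree : ℤ) = c ∧
      2 * ((Γ.g1 x.1).1 / 2) = (Γ.g1 x.1).1) (fun j => c - (Γ.g1 j).1 / 2) fun x h => by omega
    refine fg_of (P := NY Γ.N c) (τ := {x : a1 × (Fin 6 →₀ ℕ) //
      (Γ.g1 x.1).1 / 2 + (x.2.degree : ℤ) = c ∧ 2 * ((Γ.g1 x.1).1 / 2) = (Γ.g1 x.1).1})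
      (fun t => (Γ.g1 t.1.1).2) (fun t => ⟨zx B (monomial t.1.2 1) • Γ.gen t.1.1,
        Γ.x_mem _ t.2.1 _ (by rw [t.2.2]; exact Γ.gen_mem _)⟩) fun b S hS v => ?_
    obtain ⟨w, hw, e⟩ := Γ.H_le (γ := (2 * c, b)) (Submodule.map (Γ.eM.H (2 * c, b)).subtype S)
      (fun j μ τ h1 h2 => ⟨_, hS ⟨(j, μ), by simp only at h1 h2 ⊢; omega⟩
        ⟨τ, by simp only at h1 h2 ⊢; omega⟩, smul_comm _ _ _⟩) v.2
    exact (Subtype.ext e : w = v) ▸ hw

theorem exists_bd : ∃ c : ℤ, ∀ j, |(Γ.g1 j).1| ≤ c :=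
  ⟨∑ j, |(Γ.g1 j).1|, fun j =>
    Finset.single_le_sum (f := fun j => |(Γ.g1 j).1|) (fun _ _ => abs_nonneg _) (Finset.mem_univ j)⟩

/-- **The kernel.** -/
def ker (h : ∀ P, Gr.grA I ((psi0 Γ.N).obj P)) : Ker W I where
  N := Γ.N
  mem := Γ.NY_mem
  memP := h
  low := by
    obtain ⟨c, hc⟩ := Γ.exists_bd
    refine ⟨-|c|, fun e he m => ⟨fun x y => Subtype.ext ?_⟩⟩
    have k := Γ.H_le (γ := (2 * e, m)) ⊥ fun j μ τ h1 _ => by
      have := abs_le.1 (hc j)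
      have := le_abs_self c
      have := abs_nonneg c
      simp only at h1
      omega
    exact (k x.2).trans (k y.2).symm
  fg := by
    obtain ⟨c, hc⟩ := Γ.exists_bd
    refine ⟨|c|, fun e he m z => ?_⟩
    let L : (Fin 6 → (Γ.NX m).obj ⟨e⟩) →ₗ[ℂ] (Γ.NX m).obj ⟨e + 1⟩ :=
      ∑ j, (O.L.act (Γ.NX m) (X j) e (e + 1)).hom ∘ₗ LinearMap.proj j
    have hL : ∀ y, L y = ∑ j, O.L.act (Γ.NX m) (X j) e (e + 1) (y j) := fun y =>
      LinearMap.sum_apply _ _ _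
    obtain ⟨w, ⟨y, rfl⟩, e'⟩ := Γ.H_le (γ := (2 * (e + 1), m))
      (Submodule.map (Γ.eM.H (2 * (e + 1), m)).subtype (LinearMap.range L)) (fun j μ τ h1 h2 => by
        have hμ : μ ≠ 0 := by
          rintro rfl
          have := abs_le.1 (hc j)
          have := le_abs_self c
          have := abs_nonneg c
          simp only [map_zero, Nat.cast_zero] at h1
          omega
        obtain ⟨i, hi⟩ := Finsupp.support_nonempty_iff.2 hμ
        obtain ⟨μ', rfl⟩ : ∃ μ', μ = Finsupp.single i 1 + μ' :=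
          ⟨μ - Finsupp.single i 1, (add_tsub_cancel_of_le (Finsupp.single_le_iff.2
            (Nat.pos_of_ne_zero (Finsupp.mem_support_iff.1 hi)))).symm⟩
        rw [map_add, Finsupp.degree_single] at h1
        have hm := Γ.lbM.smul (Γ.zx_mem μ') (Γ.lbM.smul (Γ.zy_mem τ) (Γ.gen_mem j))
        rw [show (2 * (μ'.degree : ℤ), (0 : ℤ)) + ((0, (τ.degree : ℤ)) + Γ.g1 j) = (2 * e, m) from
          Prod.ext (by simp only [Prod.fst_add] at h1 ⊢; push_cast at h1; omega)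
            (by simp only [Prod.snd_add] at h2 ⊢; omega)] at hm
        have e3 := hL (Pi.single i ⟨_, hm⟩)
        rw [Finset.sum_eq_single i (fun k _ hk => by rw [Pi.single_eq_of_ne hk, map_zero])
          (fun h => absurd (Finset.mem_univ i) h), Pi.single_eq_same] at e3
        refine ⟨_, ⟨_, e3⟩, (Γ.NX_act m (X i) e (e + 1) _).trans ?_⟩
        refine (Γ.eM.pr_self (Γ.x_mem (Finsupp.single i 1) (b := e + 1) (by simp) _ hm)).trans ?_
        rw [smul_smul, ← map_mul, monomial_mul, one_mul]) z.2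
    exact ⟨y, (Subtype.ext e' : L y = z).symm.trans (hL y)⟩

end Bg

end Vale.Agent.P287T.Kr
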