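import Vale.Agent.P287T.Kr.Quo

/-!
# The complexes attached to the strict model and a representation of the chart
-/

set_option linter.unusedSectionVars false

open MvPolynomial Matrix

noncomputable section

namespace Vale.Agent.P287T.Kr

open Vale.Agent.P287T.Sx Vale.Agent.P287T.Cy Vale.Agent.P287T.Fm Vale.Agent.P287Z
  Vale.Agent.P287Z.O.V

variable {B D : Type} [CommRing B] [Algebra ℂ B] [CommRing D] [Algebra ℂ D]
  {κ : Type} [Fintype κ] [DecidableEq κ]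

theorem blk_mem (ρ : D →ₐ[ℂ] Matrix κ κ ℂ) {e : Eu D} (he : ∀ γ : ℤ × ℤ, γ.1 ≠ 0 → e.H γ ≤ ⊥)
    {a b : Type} [Fintype a] [Fintype b] {q : b × κ → ℤ} {q' : a × κ → ℤ} {j : ℤ}
    {g : Matrix a b (Px D)} {γ : a → b → ℤ × ℤ} (h : ∀ i l, g i l ∈ (e.mv wx).H (γ i l))
    (hγ : ∀ x y, (γ x.1 y.1).1 = j + q y - q' x) : blk ρ g ∈ MM q q' j := fun x y =>
  (hγ x y ▸ ch_of_mem he (h x.1 y.1)).cf _

theorem blk_cg0 (ρ : D →ₐ[ℂ] Matrix κ κ ℂ) {W : S6} {a b c : Type} [Fintype b]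
    {g : Matrix a b (Px D)} {h : Matrix b c (Px D)}
    (e : Cg (MvPolynomial.map (algebraMap ℂ D) W) (g * h) 0) : Cg W (blk ρ g * blk ρ h) 0 := by
  rw [← blk_mul, ← blk_zero ρ]
  exact blk_cg ρ e

theorem fst_t (a b : ℤ × ℤ) : (a - (3, 0) - b).1 = -3 + a.1 - b.1 := by
  simp only [Prod.fst_sub]
  ring

theorem fst_d (a b : ℤ × ℤ) : (a + (3, 0) - b).1 = 3 + a.1 - b.1 := by
  simp only [Prod.fst_sub, Prod.fst_add]
  ring

theorem fst_a (a b : ℤ × ℤ) : (a - b).1 = 0 + a.1 - b.1 := by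
  rw [zero_add, Prod.fst_sub]

theorem fst_s (a b : ℤ) : a - 3 - b = -3 + a - b := by ring

/-- the representation of a point -/
def sc (φ : D →ₐ[ℂ] ℂ) : D →ₐ[ℂ] Matrix (Fin 1) (Fin 1) ℂ := (Algebra.ofId ℂ _).comp φ

theorem sc_apply (φ : D →ₐ[ℂ] ℂ) (b : D) (s t : Fin 1) : sc φ b s t = φ b := by
  change algebraMap ℂ (Matrix (Fin 1) (Fin 1) ℂ) (φ b) s t = _
  rw [Matrix.algebraMap_matrix_apply, if_pos (Subsingleton.elim _ _)]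
  rfl

/-- the representation of a tangent vector -/
def jt (φ : D →ₐ[ℂ] ℂ) (δ : D →ₗ[ℂ] ℂ) (h : ∀ a b, δ (a * b) = φ a * δ b + φ b * δ a) :
    D →ₐ[ℂ] Matrix (Fin 2) (Fin 2) ℂ :=
  AlgHom.ofLinearMap
    { toFun := fun b => !![φ b, 0; δ b, φ b]
      map_add' := fun a b => by ext i j; fin_cases i <;> fin_cases j <;> simp
      map_smul' := fun a b => by ext i j; fin_cases i <;> fin_cases j <;> simp }
    (by
      have h1 := h 1 1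
      rw [one_mul, map_one φ, one_mul, left_eq_add] at h1
      ext i j
      fin_cases i <;> fin_cases j <;> simp [h1])
    fun a b => by
      ext i j
      fin_cases i <;> fin_cases j <;> simp [Matrix.mul_apply, Fin.sum_univ_two, h]
      ring

theorem jt_apply (φ : D →ₐ[ℂ] ℂ) (δ : D →ₗ[ℂ] ℂ) (h) (b : D) :
    jt φ δ h b = !![φ b, 0; δ b, φ b] := rfl

theorem rM_pt (ρ : D →ₐ[ℂ] Matrix κ κ ℂ) (φ : D →ₐ[ℂ] ℂ) {s t : κ} (h : ∀ b, ρ b s t = φ b)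
    (g : Px D) : rM ρ g s t = MvPolynomial.map (φ : D →+* ℂ) g := by
  ext μ
  rw [coeff_rM, coeff_map, h]
  rfl

variable [Algebra B D] [IsScalarTower ℂ B D] {ι : Type} [Fintype ι] [DecidableEq ι] {Γ : Gr B D}
  {W : S6} {p : ι → ℤ} {d : Matrix ι ι (Px D)}

/-- the restriction of the representation -/
abbrev rB (B : Type) [CommRing B] [Algebra ℂ B] [Algebra B D] [IsScalarTower ℂ B D]
    (ρ : D →ₐ[ℂ] Matrix κ κ ℂ) : B →ₐ[ℂ] Matrix κ κ ℂ := ρ.comp (IsScalarTower.toAlgHom ℂ B D)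

theorem blk_alg (ρ : D →ₐ[ℂ] Matrix κ κ ℂ) {a b : Type} (g : Matrix a b (Px B)) :
    blk ρ (mm (algebraMap B D) g) = blk (rB B ρ) g := blk_mm ρ (IsScalarTower.toAlgHom ℂ B D) g

/-- the complex -/
def raw (hF : Fm Γ W p d) (O : Out Γ W p d) (ρ : D →ₐ[ℂ] Matrix κ κ ℂ) :
    Raw W (ι × κ) (Fin (O.r 0) × κ) (Fin (O.r 1) × κ) (Fin (O.r 2) × κ) where
  p x := p x.1
  d := blk ρ d
  c0 x := (O.dg 0 x.1).1
  c1 x := (O.dg 1 x.1).1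
  c2 x := (O.dg 2 x.1).1
  δ0 := blk (rB B ρ) (O.δ 0)
  δ1 := blk (rB B ρ) (O.δ 1)
  α0 := blk ρ (O.α 0)
  α1 := blk ρ (O.α 1)
  α2 := blk ρ (O.α 2)
  β1 := blk ρ (O.β 1)
  β2 := blk ρ (O.β 2)
  s0 := blk ρ (O.s 0)
  s1 := blk ρ (O.s 1)
  t0 := blk ρ (O.t 0)
  t1 := blk ρ (O.t 1)
  mf := ⟨fun x y => Ch.cf (fun μ => (hF.dg x.1 y.1 μ).2) _, by
    rw [← blk_mul, hF.sq, blk_smul, blk_one]⟩
  hδ0 := blk_mem _ Γ.chB (O.hδ 0) fun _ _ => fst_d _ _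
  hδ1 := blk_mem _ Γ.chB (O.hδ 1) fun _ _ => fst_d _ _
  hα1 := blk_mem _ Γ.chD (O.hα 1) fun _ _ => fst_a _ _
  hα2 := blk_mem _ Γ.chD (O.hα 2) fun _ _ => fst_a _ _
  hβ1 := blk_mem _ Γ.chD (O.hβ 1) fun _ _ => fst_a _ _
  hβ2 := blk_mem _ Γ.chD (O.hβ 2) fun _ _ => fst_a _ _
  hs0 := blk_mem _ Γ.chD (O.hs 0) fun _ _ => fst_s _ _
  hs1 := blk_mem _ Γ.chD (O.hs 1) fun _ _ => fst_s _ _
  ht0 := blk_mem _ Γ.chD (O.ht 0) fun _ _ => fst_t _ _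
  ht1 := blk_mem _ Γ.chD (O.ht 1) fun _ _ => fst_t _ _
  δδ := blk_cg0 (rB B ρ) (O.δδ 0)
  cα0 := by
    have := blk_cg ρ (O.cα 0)
    rwa [blk_mul, blk_mul, blk_alg] at this
  cα1 := by
    have := blk_cg ρ (O.cα 1)
    rwa [blk_mul, blk_mul, blk_alg] at this
  cβ := by
    have := blk_cg ρ (O.cβ 1)
    rwa [blk_mul, blk_mul, blk_alg] at this
  αβ := by
    have := blk_cg ρ (O.αβ 0)
    rwa [blk_sub, blk_add, blk_mul, blk_mul, blk_mul, blk_one] at this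
  βα := by
    have := blk_cg ρ (O.βα 0)
    rwa [blk_sub, blk_add, blk_mul, blk_mul, blk_mul, blk_one, blk_alg, blk_alg] at this

/-- the bihomogeneous matrix -/
def bg (hF : Fm Γ W p d) (O : Out Γ W p d) {ν : ℕ} {I : Ideal (Gr.Sn ν)} (q : Gr.Sn ν →ₐ[ℂ] B)
    (hq : Function.Surjective q) (hI : ∀ f ∈ I, q f = 0) (hy : ∀ i, q (X i) ∈ Γ.eB.H (0, 1)) :
    Bg W I B (Fin (O.r 1)) (Fin (O.r 2)) where
  q := q
  hq := hq
  hI := hI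
  e := Γ.eB
  lb := Γ.lbB
  ch := Γ.chB
  hy := hy
  hW := hF.hW
  g1 := O.dg 1
  g2 := O.dg 2
  δ := O.δ 1
  hδ := O.hδ 1

end Vale.Agent.P287T.Kr
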