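import Vale.Agent.P287T.Kr.Mod

/-!
# Quotients of the kernel by ideals of finite colength
-/

set_option backward.isDefEq.respectTransparency false
set_option linter.unusedSectionVars false

open CategoryTheory Limits MvPolynomial Matrix

noncomputable section

namespace Vale.Agent.P287T.Kr

open Vale.Agent.P287T.Sx Vale.Agent.P287T.Cy Vale.Agent.P287T.Fm Vale.Agent.P287Z
  Vale.Agent.P287Z.O.V

section hp

variable (W : S6) {a b : Type} [Fintype a] [Fintype b]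

/-- the class of the homogeneous part of a vector -/
def hp (q : a → ℤ) (e : ℤ) : (a → S6) →ₗ[ℂ] (O.L.FrO W q).obj ⟨e⟩ where
  toFun v := O.L.FrO.mk W (fun i => O.L.hpart (2 * e - q i) (v i)) fun _ => O.L.hga_hpart _ _
  map_add' u v := O.L.FrO.mk_congr W (w := _ + _)
    (h' := fun _ => O.L.hga_add (O.L.hga_hpart _ _) (O.L.hga_hpart _ _))
    (funext fun _ => O.L.hpart_add _ _ _)
  map_smul' c v := O.L.FrO.mk_congr W (w := c • _)
    (h' := fun _ => O.L.hga_smul c (O.L.hga_hpart _ _)) (funext fun i => by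
      ext μ
      rw [Pi.smul_apply, Pi.smul_apply, coeff_smul, O.L.coeff_hpart, O.L.coeff_hpart, coeff_smul]
      split_ifs <;> simp)

theorem hp_self {q : a → ℤ} {e : ℤ} {v : a → S6} (h : ∀ i, Hg (2 * e - q i) (v i)) :
    hp W q e v = O.L.FrO.mk W v h :=
  O.L.FrO.mk_congr W (funext fun i => O.L.hpart_eq_self (h i))

theorem hp_surj (q : a → ℤ) (e : ℤ) : Function.Surjective (hp W q e) := fun x => by
  obtain ⟨v, h, rfl⟩ := O.L.FrO.mk_surj W x
  exact ⟨v, hp_self W h⟩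

theorem hp_ne {q : a → ℤ} {e c : ℤ} {v : a → S6} (h : ∀ i, Hg (c - q i) (v i)) (hc : c ≠ 2 * e) :
    hp W q e v = 0 := (O.L.FrO.mk_eq_zero W).2 fun i => by
  have : O.L.hpart (2 * e - q i) (v i) = 0 := by
    ext μ
    rw [O.L.coeff_hpart, coeff_zero]
    split_ifs with h1
    · by_contra h2
      have := O.L.hg_iff.1 (h i) μ (mem_support_iff.2 h2)
      omega
    · rfl
  rw [this]
  exact dvd_zero _

theorem hp_mulVec {q : a → ℤ} {q' : b → ℤ} {f : Matrix b a S6} (hf : O.L.HgM q q' f) (e : ℤ)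
    (v : a → S6) : hp W q' e (f *ᵥ v) = (O.L.matO W f hf).app ⟨e⟩ (hp W q e v) :=
  O.L.FrO.mk_congr W (h' := hf.mulVec fun _ => O.L.hga_hpart _ _) (funext fun i => by
    rw [Matrix.mulVec, dotProduct, O.L.hpart_sum, Matrix.mulVec, dotProduct]
    refine Finset.sum_congr rfl fun j _ => ?_
    rw [O.L.hpart_mul (hf i j), show 2 * e - q' i - (q j - q' i) = 2 * e - q j by ring])

variable {W} in
theorem hp_dvd (hW : Hg 6 W) (q : a → ℤ) (e : ℤ) {v : a → S6} (h : ∀ i, W ∣ v i) :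
    hp W q e v = 0 := (O.L.FrO.mk_eq_zero W).2 fun i => by
  obtain ⟨u, hu⟩ := h i
  rw [hu, O.L.hpart_mul hW]
  exact dvd_mul_right _ _

theorem hp_mon (q : a → ℤ) {e e' : ℤ} (μ : Fin 6 →₀ ℕ) (h : e + (μ.degree : ℤ) = e')
    (v : a → S6) : hp W q e' ((monomial μ 1 : S6) • v) =
      (O.L.FrO W q).map (⟨μ, h⟩ : (⟨e⟩ : O.L.Dg) ⟶ ⟨e'⟩) (hp W q e v) :=
  O.L.FrO.mk_congr W (h' := fun i => O.L.hg_mul (O.L.hg_monomial μ 1) (O.L.hga_hpart _ _)
    (by rw [← h]; ring)) (funext fun i => by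
    rw [Pi.smul_apply, smul_eq_mul, O.L.hpart_mul (O.L.hg_monomial μ 1),
      show 2 * e' - q i - 2 * (μ.degree : ℤ) = 2 * e - q i by rw [← h]; ring])

end hp

variable {ν : ℕ}

theorem actT_mon (N : Gr.GrS ν) (μ : Fin ν →₀ ℕ) (c : ℂ) :
    actT N (monomial μ c) = c • shT N μ := AddMonoidAlgebra.lift_single _ _ _

variable {B : Type} [CommRing B] [Algebra ℂ B]
  {I : Ideal (Gr.Sn ν)} {W : S6} {a1 a2 : Type} [Fintype a1] [DecidableEq a1] [Fintype a2]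

namespace Bg

variable (Γ : Bg W I B a1 a2)

/-- the total module of charge `2 c` inside the module -/
def sg (c : ℤ) : (Π₀ m : ℤ, (NY Γ.N c).obj ⟨m⟩) →ₗ[ℂ] Γ.M :=
  DFinsupp.lsum ℂ fun m => (Γ.eM.H (2 * c, m)).subtype

theorem sg_single (c m : ℤ) (x : (NY Γ.N c).obj ⟨m⟩) : Γ.sg c (DFinsupp.single m x) = x.1 :=
  DFinsupp.lsum_single _ _ _ _

/-- the projection to a bidegree -/
def kk (c m : ℤ) : Γ.M →ₗ[ℂ] (NY Γ.N c).obj ⟨m⟩ :=
  (Γ.eM.pr (2 * c, m)).codRestrict _ (Γ.eM.pr_mem _)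

/-- the projection to the total module of charge `2 c` -/
def rh (c : ℤ) : Γ.M →ₗ[ℂ] (Π₀ m : ℤ, (NY Γ.N c).obj ⟨m⟩) :=
  (Finsupp.lsum ℂ fun γ : ℤ × ℤ => DFinsupp.lsingle γ.2 ∘ₗ Γ.kk c γ.2) ∘ₗ Γ.eM.dec

theorem rh_mem (c : ℤ) {γ : ℤ × ℤ} {v : Γ.M} (h : v ∈ Γ.eM.H γ) :
    Γ.rh c v = DFinsupp.single γ.2 (Γ.kk c γ.2 v) := by
  rw [rh, LinearMap.comp_apply, Γ.eM.dec_of_mem h, Finsupp.lsum_single]
  rfl

theorem rh_sg (c : ℤ) (t) : Γ.rh c (Γ.sg c t) = t := by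
  have : Γ.rh c ∘ₗ Γ.sg c = LinearMap.id := DFinsupp.lhom_ext fun m x => by
    rw [LinearMap.comp_apply, sg_single, Γ.rh_mem c x.2]
    exact congrArg (DFinsupp.single m) (Subtype.ext (Γ.eM.pr_self x.2))
  exact congr($this t)

theorem zy_mon (μ : Fin ν →₀ ℕ) (z : ℂ) (v : Γ.M) :
    zy Γ.q (monomial μ z) • v = z • zy Γ.q (monomial μ 1) • v := by
  rw [← smul_assoc z, ← map_smul, smul_monomial, smul_eq_mul, mul_one]

theorem sg_act (c : ℤ) (g : Gr.Sn ν) (t) :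
    Γ.sg c (actT (NY Γ.N c) g t) = zy Γ.q g • Γ.sg c t := by
  induction g using MvPolynomial.induction_on' with
  | monomial μ z =>
    rw [actT_mon, LinearMap.smul_apply, map_smul, zy_mon]
    congr 1
    induction t using DFinsupp.induction with
    | h0 => simp
    | ha m x f _ _ ih =>
      rw [map_add, map_add, map_add, smul_add, ih, shT_single _ μ rfl, sg_single, sg_single]
      rfl
  | add f g hf hg => rw [map_add, LinearMap.add_apply, map_add, hf, hg, map_add, add_smul]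

theorem rh_act (c : ℤ) (g : Gr.Sn ν) (v : Γ.M) :
    Γ.rh c (zy Γ.q g • v) = actT (NY Γ.N c) g (Γ.rh c v) := by
  induction g using MvPolynomial.induction_on' with
  | monomial μ z =>
    rw [actT_mon, LinearMap.smul_apply, zy_mon, map_smul]
    congr 1
    induction v using Γ.eM.ind with
    | h0 => simp
    | hh γ v hv =>
      have hv' := Γ.y_mem μ (a := γ.2) (c := γ.1) rfl v hv
      rw [Γ.rh_mem c hv, Γ.rh_mem c hv', shT_single _ μ rfl]
      refine congrArg (DFinsupp.single _) (Subtype.ext ?_)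
      change Γ.eM.pr (2 * c, γ.2 + (μ.degree : ℤ)) _
        = zy Γ.q (monomial μ 1) • Γ.eM.pr (2 * c, γ.2) v
      by_cases h : 2 * c = γ.1
      · rw [h, Γ.eM.pr_self hv', Γ.eM.pr_self (γ := (γ.1, γ.2)) hv]
      · rw [Γ.eM.pr_ne hv' fun e => h (congrArg Prod.fst e),
          Γ.eM.pr_ne hv fun e => h (congrArg Prod.fst e), smul_zero]
    | ha u v hu hv => rw [smul_add, map_add, hu, hv, map_add, map_add]
  | add f g hf hg => rw [map_add, add_smul, map_add, hf, hg, map_add, LinearMap.add_apply]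

/-- `𝔞 M` -/
def AM (𝔞 : Ideal (Gr.Sn ν)) : Submodule ℂ Γ.M :=
  Submodule.span ℂ {w | ∃ g ∈ 𝔞, ∃ v, zy Γ.q g • v = w}

theorem inI_iff (𝔞 : Ideal (Gr.Sn ν)) (c : ℤ) (t) :
    InI (NY Γ.N c) 𝔞 t ↔ Γ.sg c t ∈ Γ.AM 𝔞 := by
  constructor
  · intro h
    refine Submodule.smul_induction_on (p := fun t : Tot (NY Γ.N c) => Γ.sg c t ∈ Γ.AM 𝔞) h
      (fun g hg t _ => ?_) fun x y hx hy => ?_
    · exact Submodule.subset_span ⟨g, hg, _, (Γ.sg_act c g t).symm⟩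
    · exact (map_add (Γ.sg c) x y).symm ▸ add_mem hx hy
  · intro h
    rw [← Γ.rh_sg c t]
    generalize Γ.sg c t = v at h
    induction h using Submodule.span_induction with
    | mem w hw =>
      obtain ⟨g, hg, v, rfl⟩ := hw
      rw [rh_act]
      exact Submodule.smul_mem_smul (N := (⊤ : Submodule (Gr.Sn ν) (Tot (NY Γ.N c)))) hg
        Submodule.mem_top
    | zero => rw [map_zero]; exact Submodule.zero_mem _
    | add x y _ _ hx hy => rw [map_add]; exact Submodule.add_mem _ hx hy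
    | smul z x _ hx =>
      have e : Γ.rh c (z • x) = actT (NY Γ.N c) (C z) (Γ.rh c x) := by
        rw [← rh_act, ← algebraMap_smul (Px B) z x, ← (zy Γ.q).commutes]
        rfl
      rw [e]
      exact Submodule.smul_mem (𝔞 • ⊤ : Submodule (Gr.Sn ν) (Tot (NY Γ.N c))) (C z) hx

variable {κ : Type} [Fintype κ] [DecidableEq κ] (ρ : B →ₐ[ℂ] Matrix κ κ ℂ) (t₀ : κ)

theorem vec_hg {γ : ℤ × ℤ} {u} (hu : u ∈ Γ.eF.H γ) (x : a1 × κ) :
    Hg (γ.1 - (Γ.g1 x.1).1) (vec ρ t₀ u x) := (ch_of_mem Γ.ch (Eu.mem_pi.1 hu x.1)).cf _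

theorem vec_ker {𝔞 : Ideal (Gr.Sn ν)}
    (hk : ∀ g, (∀ s, ρ (Γ.q g) s t₀ = 0) → g ∈ 𝔞) {u}
    (hu : vec ρ t₀ u = 0) : Γ.pj u ∈ Γ.AM 𝔞 := by
  rw [← Finset.univ_sum_single u, map_sum]
  refine Submodule.sum_mem _ fun j _ => ?_
  have e : (Pi.single j (u j) : a1 → _) = u j • (Pi.single j 1 : a1 → _) := by
    rw [← Pi.single_smul, smul_eq_mul, mul_one]
  rw [e, pj_smul, ← support_sum_monomial_coeff (u j), Finset.sum_smul]
  refine Submodule.sum_mem _ fun μ _ => ?_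
  obtain ⟨g, hg⟩ := Γ.hq (coeff μ (u j))
  refine Submodule.subset_span ⟨g, hk g fun s => ?_,
    (monomial μ 1 : Px B) • Γ.pj (Pi.single j 1), ?_⟩
  · rw [hg, ← coeff_rM, ← vec_apply ρ t₀ u (j, s), hu]
    rfl
  · rw [smul_smul, zy_apply, C_mul_monomial, mul_one, hg]

omit [Fintype a1] [DecidableEq a1] in
theorem vec_zy {g : Gr.Sn ν} (hg : ∀ s, ρ (Γ.q g) s t₀ = 0)
    (u : a1 → Px B) : vec ρ t₀ (zy Γ.q g • u) = 0 := by
  funext x
  rw [vec_apply, Pi.smul_apply, smul_eq_mul, mul_comm, rM_mul, Matrix.mul_apply]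
  refine Finset.sum_eq_zero fun s _ => ?_
  rw [zy_apply, ← monomial_zero', rM_apply ρ (monomial 0 _), cf_monomial, en_apply, hg,
    monomial_zero, mul_zero]

variable [Fact (W.IsHomogeneous 3)] {ι a0 : Type} [Fintype ι] [DecidableEq ι] [Fintype a0]
  (R : Raw W ι a0 (a1 × κ) (a2 × κ)) (hc : R.c1 = fun x => (Γ.g1 x.1).1) (hδ : R.δ1 = blk ρ Γ.δ)

/-- the evaluation on the free module -/
def th0 (e : ℤ) : (a1 → Px B) →ₗ[ℂ] R.Q.obj.obj ⟨e⟩ :=
  (R.π.hom.app ⟨e⟩).hom ∘ₗ hp W R.c1 e ∘ₗ vec ρ t₀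

theorem th0_apply (e : ℤ) (u : a1 → Px B) :
    th0 ρ t₀ R e u = R.π.hom.app ⟨e⟩ (hp W R.c1 e (vec ρ t₀ u)) := rfl

include hδ in
theorem th0_P (e : ℤ) : ∀ v ∈ Γ.P, th0 ρ t₀ R e v = 0 := by
  rintro _ ⟨u, w, rfl⟩
  rw [th0_apply, map_add, map_add, map_add, vec_mulVec, ← hδ, hp_mulVec W R.hg1, zx_apply, vec_smul,
    hp_dvd Γ.hW _ _ (v := W • vec ρ t₀ w) fun i => dvd_mul_right _ _, map_zero, add_zero]
  exact congr(($(R.dπ)).hom.app ⟨e⟩ _)

/-- the evaluation -/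
def th (e : ℤ) : Γ.M →ₗ[ℂ] R.Q.obj.obj ⟨e⟩ :=
  (Γ.P.restrictScalars ℂ).liftQ (th0 ρ t₀ R e) (Γ.th0_P ρ t₀ R hδ e) ∘ₗ
    (Submodule.Quotient.restrictScalarsEquiv ℂ Γ.P).symm.toLinearMap

theorem th_mk (e : ℤ) (u) : Γ.th ρ t₀ R hδ e (Γ.pj u) = th0 ρ t₀ R e u := rfl

/-- the evaluation as a map of graded modules -/
def evq (m : ℤ) : Γ.N.obj ⟨m⟩ ⟶ R.Q := ObjectProperty.homMk
  { app := fun e => ModuleCat.ofHom (Γ.th ρ t₀ R hδ e.deg ∘ₗ (Γ.eM.H (2 * e.deg, m)).subtype)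
    naturality := fun a b μ => ModuleCat.hom_ext (LinearMap.ext fun v => by
      obtain ⟨u, hu⟩ := Γ.pj_surj v.1
      change Γ.th ρ t₀ R hδ b.deg (zx B (monomial μ.1 1) • v.1)
        = R.Q.obj.map μ (Γ.th ρ t₀ R hδ a.deg v.1)
      rw [← hu, ← pj_smul, th_mk, th_mk, th0_apply, th0_apply, zx_apply, vec_smul,
        hp_mon W R.c1 μ.1 μ.2]
      exact congr($(R.π.hom.naturality μ) _)) }

include hc hδ in
theorem quo {𝔞 : Ideal (Gr.Sn ν)}
    (hs : Function.Surjective fun (b : B) (s : κ) => ρ b s t₀)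
    (hk : ∀ g, (∀ s, ρ (Γ.q g) s t₀ = 0) ↔ g ∈ 𝔞) (h) :
    (Γ.ker h).Quo 𝔞 R.Q := by
  refine ⟨Γ.evq ρ t₀ R hδ, fun e => ?_⟩
  have e1 : ∀ t, DFinsupp.lsum ℂ (fun m => ((Γ.evq ρ t₀ R hδ m).hom.app ⟨e⟩).hom) t
      = Γ.th ρ t₀ R hδ e (Γ.sg e t) := fun t => by
    have : DFinsupp.lsum ℂ (fun m => ((Γ.evq ρ t₀ R hδ m).hom.app ⟨e⟩).hom)
        = Γ.th ρ t₀ R hδ e ∘ₗ Γ.sg e := DFinsupp.lhom_ext fun m x => by
      rw [DFinsupp.lsum_single]
      exact congrArg (Γ.th ρ t₀ R hδ e) (Γ.sg_single e m x).symm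
    exact congr($this t)
  have e2 : ∀ v, Γ.th ρ t₀ R hδ e (Γ.sg e (Γ.rh e v)) = Γ.th ρ t₀ R hδ e v := fun v => by
    induction v using Γ.eM.ind with
    | h0 => simp
    | hh γ v hv =>
      rw [Γ.rh_mem e hv, sg_single]
      change Γ.th ρ t₀ R hδ e (Γ.eM.pr (2 * e, γ.2) v) = _
      by_cases h : 2 * e = γ.1
      · rw [h, Γ.eM.pr_self (γ := (γ.1, γ.2)) hv]
      · obtain ⟨u, hu, rfl⟩ := Γ.lift hv
        rw [Γ.eM.pr_ne hv fun e => h (congrArg Prod.fst e), map_zero, th_mk, th0_apply,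
          hp_ne W (c := γ.1) (fun x => by rw [hc]; exact Γ.vec_hg ρ t₀ hu x) (Ne.symm h), map_zero]
    | ha u v hu hv => simp only [map_add, hu, hv]
  refine ⟨fun y => ?_, fun t => ?_⟩
  · obtain ⟨x, rfl⟩ := O.L.GA_app_surjective W R.π e y
    obtain ⟨w, rfl⟩ := hp_surj W R.c1 e x
    obtain ⟨u, rfl⟩ := vec_surj ρ hs w
    exact ⟨Γ.rh e (Γ.pj u), (e1 _).trans (e2 _)⟩
  · refine (congrArg (· = 0) (e1 t)).to_iff.trans (Iff.trans ?_ (Γ.inI_iff 𝔞 e t).symm)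
    constructor
    · intro h0
      obtain ⟨u, hu, hu'⟩ : ∃ u, Γ.pj u = Γ.sg e t ∧
          ∀ x, Hg (2 * e - R.c1 x) (vec ρ t₀ u x) := by
        clear h0
        induction t using DFinsupp.induction with
        | h0 => exact ⟨0, by simp, fun x => by rw [map_zero]; exact O.L.hga_zero _⟩
        | ha m x f _ _ ih =>
          obtain ⟨u, h1, h2⟩ := ih
          obtain ⟨u', h3, h4⟩ := Γ.lift x.2
          refine ⟨u' + u, by rw [map_add, map_add, h1, h4, sg_single], fun y => ?_⟩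
          rw [map_add]
          exact O.L.hga_add (by rw [hc]; exact Γ.vec_hg ρ t₀ h3 y) (h2 y)
      rw [← hu, th_mk, th0_apply, hp_self W hu'] at h0
      obtain ⟨u1, h1⟩ := R.π_zero h0
      choose w1 hw1 using h1
      obtain ⟨u2, rfl⟩ := vec_surj ρ hs u1
      obtain ⟨w2, rfl⟩ := vec_surj ρ hs w1
      have e3 : Γ.pj (u - (Γ.δ *ᵥ u2 + zx B W • w2)) = Γ.pj u := by
        rw [map_sub, Γ.pj_zero.2 ⟨u2, w2, rfl⟩, sub_zero]
      rw [← hu, ← e3]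
      refine Γ.vec_ker ρ t₀ (fun g => (hk g).1) ?_
      rw [map_sub, map_add, vec_mulVec, ← hδ, zx_apply, vec_smul]
      funext x
      have := hw1 x
      simp only [Pi.sub_apply, Pi.add_apply, Pi.smul_apply, smul_eq_mul, Pi.zero_apply]
      linear_combination this
    · intro h0
      generalize Γ.sg e t = v at h0
      induction h0 using Submodule.span_induction with
      | mem w hw =>
        obtain ⟨g, hg, v, rfl⟩ := hw
        obtain ⟨u, rfl⟩ := Γ.pj_surj v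
        rw [← pj_smul, th_mk, th0_apply, Γ.vec_zy ρ t₀ ((hk g).2 hg), map_zero, map_zero]
      | zero => exact map_zero _
      | add x y _ _ hx hy => rw [map_add, hx, hy, add_zero]
      | smul z x _ hx => rw [map_smul, hx, smul_zero]

end Bg

end Vale.Agent.P287T.Kr
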