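import Vale.Agent.P287T.Fm.Defs
import Vale.Agent.P287T.Kr.Blk

/-!
# A complex which is homotopy equivalent to the periodic complex of a matrix factorization
-/

set_option backward.isDefEq.respectTransparency false

open CategoryTheory Limits MvPolynomial Matrix

noncomputable section

namespace Vale.Agent.P287T.Kr

open Vale.Agent.P287T.Sx Vale.Agent.P287T.Cy Vale.Agent.P287T.Fm Vale.Agent.P287Z.O
  Vale.Agent.P287Z.O.L Vale.Agent.P287Z.O.V

/-- three terms of a complex of free modules over `ℂ[x] / W`, compared with `(p, d)` -/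
structure Raw (W : S6) (ι a0 a1 a2 : Type) [Fintype ι] [DecidableEq ι] [Fintype a0] [Fintype a1]
    [DecidableEq a1] [Fintype a2] where
  p : ι → ℤ
  d : Matrix ι ι S6
  c0 : a0 → ℤ
  c1 : a1 → ℤ
  c2 : a2 → ℤ
  δ0 : Matrix a0 a1 S6
  δ1 : Matrix a1 a2 S6
  α0 : Matrix ι a0 S6
  α1 : Matrix ι a1 S6
  α2 : Matrix ι a2 S6
  β1 : Matrix a1 ι S6
  β2 : Matrix a2 ι S6
  s0 : Matrix ι ι S6
  s1 : Matrix ι ι S6
  t0 : Matrix a1 a0 S6
  t1 : Matrix a2 a1 S6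
  mf : IsMF W p d
  hδ0 : δ0 ∈ MM c1 c0 3
  hδ1 : δ1 ∈ MM c2 c1 3
  hα1 : α1 ∈ MM c1 p 0
  hα2 : α2 ∈ MM c2 p 0
  hβ1 : β1 ∈ MM p c1 0
  hβ2 : β2 ∈ MM p c2 0
  hs0 : s0 ∈ MM p p (-3)
  hs1 : s1 ∈ MM p p (-3)
  ht0 : t0 ∈ MM c0 c1 (-3)
  ht1 : t1 ∈ MM c1 c2 (-3)
  δδ : Cg W (δ0 * δ1) 0
  cα0 : Cg W (d * α1) (α0 * δ0)
  cα1 : Cg W (d * α2) (α1 * δ1)
  cβ : Cg W (δ1 * β2) (β1 * d)
  αβ : Cg W (α1 * β1 - 1) (d * s1 + s0 * d)
  βα : Cg W (β1 * α1 - 1) (δ1 * t1 + t0 * δ0)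

variable {W : S6} {ι a0 a1 a2 : Type} [Fintype ι] [DecidableEq ι] [Fintype a0] [Fintype a1]
  [DecidableEq a1] [Fintype a2]

theorem hgM_of {a b : Type} [Fintype a] [Fintype b] {p q : a → ℤ} {p' q' : b → ℤ} {j : ℤ}
    {g : Matrix b a S6} (h : g ∈ MM p p' j) (e : ∀ i l, q l - q' i = j + p l - p' i) :
    HgM q q' g := fun i l => by rw [e]; exact h i l

/-- change of the index set of the factorization -/
def Raw.re (R : Raw W ι a0 a1 a2) {ι' : Type} [Fintype ι'] [DecidableEq ι'] (e : ι' ≃ ι) :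
    Raw W ι' a0 a1 a2 where
  p k := R.p (e k)
  d := R.d.submatrix e e
  c0 := R.c0
  c1 := R.c1
  c2 := R.c2
  δ0 := R.δ0
  δ1 := R.δ1
  α0 := R.α0.submatrix e id
  α1 := R.α1.submatrix e id
  α2 := R.α2.submatrix e id
  β1 := R.β1.submatrix id e
  β2 := R.β2.submatrix id e
  s0 := R.s0.submatrix e e
  s1 := R.s1.submatrix e e
  t0 := R.t0
  t1 := R.t1
  mf := ⟨fun _ _ => R.mf.deg _ _, by
    rw [submatrix_mul_equiv, R.mf.sq, submatrix_smul, Pi.smul_apply, Pi.smul_apply,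
      submatrix_one_equiv]⟩
  hδ0 := R.hδ0
  hδ1 := R.hδ1
  hα1 _ _ := R.hα1 _ _
  hα2 _ _ := R.hα2 _ _
  hβ1 _ _ := R.hβ1 _ _
  hβ2 _ _ := R.hβ2 _ _
  hs0 _ _ := R.hs0 _ _
  hs1 _ _ := R.hs1 _ _
  ht0 := R.ht0
  ht1 := R.ht1
  δδ := R.δδ
  cα0 i l := by rw [submatrix_mul_equiv]; exact R.cα0 (e i) l
  cα1 i l := by rw [submatrix_mul_equiv]; exact R.cα1 (e i) l
  cβ i l := by rw [submatrix_mul_equiv]; exact R.cβ i (e l)
  αβ i l := by
    rw [submatrix_mul_equiv, submatrix_mul_equiv, ← submatrix_one_equiv e]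
    exact R.αβ (e i) (e l)
  βα i l := by rw [submatrix_mul_equiv]; exact R.βα i l

variable [Fact (W.IsHomogeneous 3)]

theorem mA_cg {a b : Type} [Fintype a] [Fintype b] {q : a → ℤ} {q' : b → ℤ} {f g : Matrix b a S6}
    (hf : HgM q q' f) (hg : HgM q q' g) (h : Cg W f g) : matA W f hf = matA W g hg :=
  matA_ext hf hg fun i j _ _ => h i j

theorem ff_of {M N : GA W} {a : Type} [Fintype a] {q : a → ℤ} (u : M ⟶ FrA W q)
    (v : FrA W q ⟶ N) : FF (u ≫ v) := by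
  classical
  let e := (Fintype.equivFin a).symm
  have h1 : HgM q (fun k => q (e k)) ((1 : Matrix a a S6).submatrix e id) :=
    fun i j => HgM.one (q := q) (e i) j
  have h2 : HgM (fun k => q (e k)) q ((1 : Matrix a a S6).submatrix id e) :=
    fun i j => HgM.one (q := q) i (e j)
  refine ⟨_, _, u ≫ matA W _ h1, matA W _ h2 ≫ v, ?_⟩
  rw [Category.assoc, ← Category.assoc (matA W _ h1), matA_comp,
    matA_congr W _ HgM.one (by rw [submatrix_mul_equiv, Matrix.one_mul]; rfl), matA_one,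
    Category.id_comp]

namespace Raw

variable (R : Raw W ι a0 a1 a2)

omit [Fact (W.IsHomogeneous 3)] in
theorem hg1 : HgM (fun j => R.c2 j + 3) R.c1 R.δ1 := hgM_of R.hδ1 fun _ _ => by ring

omit [Fact (W.IsHomogeneous 3)] in
theorem hg0 : HgM R.c1 (fun j => R.c0 j - 3) R.δ0 := hgM_of R.hδ0 fun _ _ => by ring

/-- the module -/
def Q : GA W := cokernel (matA W R.δ1 R.hg1)

/-- the projection -/
def π : FrA W R.c1 ⟶ R.Q := cokernel.π _

theorem dπ : matA W R.δ1 R.hg1 ≫ R.π = 0 := cokernel.condition _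

instance : Epi R.π := inferInstanceAs (Epi (cokernel.π _))

theorem π_zero {e : ℤ} {v : a1 → S6} {h : ∀ i, Hg (2 * e - R.c1 i) (v i)}
    (h0 : R.π.hom.app ⟨e⟩ (FrO.mk W v h) = 0) : ∃ u, ∀ i, W ∣ v i - (R.δ1 *ᵥ u) i := by
  obtain ⟨x, hx⟩ := GA_exact_apply W (ShortComplex.exact_cokernel (matA W R.δ1 R.hg1)) e _ h0
  obtain ⟨u, hu, rfl⟩ := FrO.mk_surj W (q := fun j => R.c2 j + 3) x
  exact ⟨u, (FrO.mk_eq W).1 hx.symm⟩

end Raw

theorem ste_fin {n : ℕ} (R : Raw W (Fin n) a0 a1 a2) (E : GMF W n) (hp : E.p = R.p)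
    (hd : E.d = R.d) : StE R.Q E := by
  have qs : ∀ k i, qsel E (fun _ => True) k i = R.p i - 3 * k := fun k i => by
    rw [qsel_true, hp]
  have dg : ∀ k l, k + 1 = l → HgM (qsel E (fun _ => True) k) (qsel E (fun _ => True) l) R.d :=
    fun k l h => hgM_of R.mf.deg fun _ _ => by rw [qs, qs, ← h]; ring
  have dT : ∀ k l (h : k + 1 = l), (TT E).d k l = matA W R.d (dg k l h) := fun k l h =>
    (T_d E _ k l h).trans (matA_congr W _ _ ((mask_true _).trans hd))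
  have a1 : HgM R.c1 (qsel E (fun _ => True) 0) R.α1 := hgM_of R.hα1 fun _ _ => by rw [qs]; ring
  have a2 : HgM (fun j => R.c2 j + 3) (qsel E (fun _ => True) (-1)) R.α2 :=
    hgM_of R.hα2 fun _ _ => by rw [qs]; ring
  have b1 : HgM (qsel E (fun _ => True) 0) R.c1 R.β1 := hgM_of R.hβ1 fun _ _ => by rw [qs]; ring
  have b2 : HgM (qsel E (fun _ => True) (-1)) (fun j => R.c2 j + 3) R.β2 :=
    hgM_of R.hβ2 fun _ _ => by rw [qs]; ring
  have s0 : HgM (qsel E (fun _ => True) 1) (qsel E (fun _ => True) 0) R.s0 :=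
    hgM_of R.hs0 fun _ _ => by rw [qs, qs]; ring
  have s1 : HgM (qsel E (fun _ => True) 0) (qsel E (fun _ => True) (-1)) R.s1 :=
    hgM_of R.hs1 fun _ _ => by rw [qs, qs]; ring
  have t0 : HgM (fun j => R.c0 j - 3) R.c1 R.t0 := hgM_of R.ht0 fun _ _ => by ring
  have t1 : HgM R.c1 (fun j => R.c2 j + 3) R.t1 := hgM_of R.ht1 fun _ _ => by ring
  let πE : FrA W (qsel E (fun _ => True) 0) ⟶ cok E := cokernel.π ((TT E).d (-1) 0)
  have hE : matA W R.d (dg (-1) 0 rfl) ≫ πE = 0 := by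
    rw [← dT (-1) 0 rfl]; exact cokernel.condition _
  have : Epi πE := inferInstanceAs (Epi (cokernel.π _))
  obtain ⟨α, hα⟩ : ∃ α : R.Q ⟶ cok E, R.π ≫ α = matA W R.α1 a1 ≫ πE :=
    ⟨cokernel.desc _ _ (by
      rw [← Category.assoc, matA_comp, ← mA_cg (a2.mul (dg (-1) 0 rfl)) _ R.cα1,
        ← matA_comp W _ a2 _ (dg (-1) 0 rfl), Category.assoc, hE, comp_zero]), cokernel.π_desc _ _ _⟩
  obtain ⟨β, hβ⟩ : ∃ β : cok E ⟶ R.Q, πE ≫ β = matA W R.β1 b1 ≫ R.π :=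
    ⟨cokernel.desc _ _ (by
      rw [dT (-1) 0 rfl, ← Category.assoc, matA_comp, ← mA_cg (b2.mul R.hg1) _ R.cβ,
        ← matA_comp W _ b2 _ R.hg1, Category.assoc, R.dπ, comp_zero]), cokernel.π_desc _ _ _⟩
  obtain ⟨u, hu⟩ : ∃ u : R.Q ⟶ FrA W fun j => R.c0 j - 3, R.π ≫ u = matA W R.δ0 R.hg0 :=
    ⟨cokernel.desc _ _ (by
      rw [matA_comp]
      exact matA_eq_zero W _ _ fun i j => by simpa using R.δδ i j), cokernel.π_desc _ _ _⟩
  obtain ⟨w, hw⟩ : ∃ w : cok E ⟶ FrA W (qsel E (fun _ => True) 1),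
      πE ≫ w = matA W R.d (dg 0 1 rfl) :=
    ⟨cokernel.desc _ _ (by rw [← dT 0 1 rfl]; exact (TT E).d_comp_d _ _ _),
      cokernel.π_desc _ _ _⟩
  refine ⟨α, β, ?_, ?_⟩
  · have e : α ≫ β - 𝟙 _ = u ≫ matA W R.t0 t0 ≫ R.π := by
      rw [← cancel_epi R.π, Preadditive.comp_sub, ← Category.assoc, hα, Category.assoc, hβ,
        ← Category.assoc, matA_comp, ← Category.assoc, hu, ← Category.assoc, matA_comp,
        Category.comp_id]
      have e1 := mA_cg ((a1.mul b1).sub HgM.one) ((t1.mul R.hg1).add (R.hg0.mul t0)) R.βα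
      rw [matA_sub W (a1.mul b1) HgM.one, matA_add W (t1.mul R.hg1) (R.hg0.mul t0), matA_one,
        ← matA_comp W _ t1 _ R.hg1] at e1
      have e2 := congrArg (· ≫ R.π) e1
      simp only [Preadditive.sub_comp, Preadditive.add_comp, Category.assoc, R.dπ, comp_zero,
        zero_add, Category.id_comp] at e2
      exact e2
    rw [e]
    exact ff_of _ _
  · have e : β ≫ α - 𝟙 _ = w ≫ matA W R.s0 s0 ≫ πE := by
      rw [← cancel_epi πE, Preadditive.comp_sub, ← Category.assoc, hβ, Category.assoc, hα,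
        ← Category.assoc, matA_comp, ← Category.assoc, hw, ← Category.assoc, matA_comp,
        Category.comp_id]
      have e1 := mA_cg ((b1.mul a1).sub HgM.one) ((s1.mul (dg (-1) 0 rfl)).add
        ((dg 0 1 rfl).mul s0)) R.αβ
      rw [matA_sub W (b1.mul a1) HgM.one, matA_add W (s1.mul (dg (-1) 0 rfl)) ((dg 0 1 rfl).mul s0),
        matA_one, ← matA_comp W _ s1 _ (dg (-1) 0 rfl)] at e1
      have e2 := congrArg (· ≫ πE) e1
      simp only [Preadditive.sub_comp, Preadditive.add_comp, Category.assoc, hE, comp_zero,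
        zero_add, Category.id_comp] at e2
      exact e2
    rw [e]
    exact ff_of _ _

/-- the module of the complex is stably equivalent to the module of the factorization -/
theorem ste (R : Raw W ι a0 a1 a2) {n : ℕ} (e : Fin n ≃ ι) (E : GMF W n)
    (hp : E.p = fun k => R.p (e k)) (hd : E.d = R.d.submatrix e e) : StE R.Q E :=
  ste_fin (R.re e) E hp hd

omit [Fact (W.IsHomogeneous 3)] in
theorem dvd_mulVec {a b : Type} [Fintype b] {f g : Matrix a b S6} (h : Cg W f g) (v : b → S6)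
    (i : a) : W ∣ (f *ᵥ v) i - (g *ᵥ v) i := by
  rw [← Pi.sub_apply, ← Matrix.sub_mulVec]
  exact Finset.dvd_sum fun j _ => (h i j).mul_right _

omit [Fact (W.IsHomogeneous 3)] in
theorem dvd_mulVec' {a b : Type} [Fintype b] (f : Matrix a b S6) {v w : b → S6}
    (h : ∀ j, W ∣ v j - w j) (i : a) : W ∣ (f *ᵥ v) i - (f *ᵥ w) i := by
  rw [← Pi.sub_apply, ← Matrix.mulVec_sub]
  exact Finset.dvd_sum fun j _ => (h j).mul_left _

omit [Fact (W.IsHomogeneous 3)] in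
/-- the complex is exact in the middle -/
theorem Raw.exact (R : Raw W ι a0 a1 a2) (h0 : W ≠ 0) {v : a1 → S6}
    (hv : ∀ i, W ∣ (R.δ0 *ᵥ v) i) : ∃ u, ∀ i, W ∣ v i - (R.δ1 *ᵥ u) i := by
  have h1 : ∀ i, W ∣ (R.d *ᵥ (R.α1 *ᵥ v)) i := fun i => by
    have e1 := dvd_mulVec R.cα0 v i
    have e2 := dvd_mulVec' R.α0 (v := R.δ0 *ᵥ v) (w := 0) (fun j => by simpa using hv j) i
    rw [mulVec_mulVec, mulVec_zero, Pi.zero_apply, sub_zero] at e2
    rw [mulVec_mulVec]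
    simpa using dvd_add e1 e2
  choose z hz using h1
  have h2 : R.α1 *ᵥ v = R.d *ᵥ z := by
    have e : R.d *ᵥ (R.α1 *ᵥ v) = W • z := funext hz
    have e' := congrArg (R.d *ᵥ ·) e
    simp only [mulVec_mulVec, ← Matrix.mul_assoc, R.mf.sq, mulVec_smul, Matrix.smul_mul,
      Matrix.one_mul, smul_mulVec] at e'
    funext i
    exact mul_left_cancel₀ h0 (congrFun e' i)
  refine ⟨R.β2 *ᵥ z - R.t1 *ᵥ v, fun i => ?_⟩
  have e1 := dvd_mulVec R.βα v i
  have e2 := dvd_mulVec R.cβ z i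
  have e3 := dvd_mulVec' R.t0 (v := R.δ0 *ᵥ v) (w := 0) (fun j => by simpa using hv j) i
  rw [sub_mulVec, add_mulVec, one_mulVec, ← mulVec_mulVec, ← mulVec_mulVec, ← mulVec_mulVec,
    h2] at e1
  rw [← mulVec_mulVec, ← mulVec_mulVec] at e2
  rw [mulVec_zero] at e3
  rw [mulVec_sub]
  have := dvd_sub (dvd_neg.2 (dvd_add e1 e2)) e3
  refine (dvd_iff_dvd_of_dvd_sub ?_).1 this
  simp only [Pi.sub_apply, Pi.add_apply, Pi.zero_apply]
  ring_nf
  exact dvd_zero _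

end Vale.Agent.P287T.Kr
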