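import Vale.Agent.P287T.Kr.Surf
import Vale.Agent.P287T.Au.Alg

/-!
# The statement SURF
-/

namespace Vale.Agent.P287T.Kr

theorem stSurf : Au.StSurf := fun _ C => ⟨surf C, pt_iff C⟩

end Vale.Agent.P287T.Kr
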